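import Vale.Agent.P257.P.Coef
import Vale.Agent.P257.W.DetM2
import Vale.Agent.P257.W.DetX
import Vale.Agent.P257.L.Reg
import Vale.Agent.P251.M.LineIso

/-!
# P257, part P: the coefficients of `MU` in the graded stable category

* `monMG`, `one_MG` : the ring structure;
* `QG` : the coefficients, with `hasCls_QG`, `isV_zero_QG`, `detM_QG`;
* `thom_MG`, `prof_MG'`.
-/

open CategoryTheory MonoidalCategory Functor.LaxMonoidal Functor.OplaxMonoidal

noncomputable section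

namespace Vale.Agent.P257.W

open Vale.Agent.P251.Q (ThomTheory)
open Vale.Agent.P251.M (lineIso)
open Vale.Agent.P251.I (FCP)
open K M D L T
open Vale.Agent.P257.D.EF (jC lanJ)
open Vale.Agent.P257.P (MUo ULoc coef)
open Vale.Agent.P257.Det (HasCls)
open E (n0)

theorem uLoc_sG (p : ℕ) : ULoc (n0 p) (sG p) := ⟨isLoc_sG p, sphFun_sG p, zero_sG p⟩

/-- the ring structure of `MU` -/
instance monMG (p : ℕ) : MonObj ((sE p).obj MG.X) := (sE p).monObjObj MG.X

theorem one_MG (p : ℕ) :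
    MonObj.one (X := (sE p).obj MG.X) = (sE p).map (MonObj.one (X := MG.X)) := Category.id_comp _

theorem mul_MG (p : ℕ) :
    MonObj.mul (X := (sE p).obj MG.X) = (sE p).map (MonObj.mul (X := MG.X)) := Category.id_comp _

theorem one_sG (p : ℕ) :
    MonObj.one (X := (sE p).obj MG.X) = ε (sG p) ≫ (sG p).map (MonObj.one (X := MUo)) :=
  (congrArg (_ ≫ ·) ((sE p).map_comp _ _)).trans (Category.assoc _ _ _).symm

theorem mul_sG (p : ℕ) :
    MonObj.mul (X := (sE p).obj MG.X) = μ (sG p) _ _ ≫ (sG p).map (MonObj.mul (X := MUo)) :=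
  (congrArg (_ ≫ ·) ((sE p).map_comp _ _)).trans (Category.assoc _ _ _).symm

variable {U : P251.St.SHCat} (σ : P251.St.Susp U)

/-- the Thom theory of `MU` -/
abbrev EM : ThomTheory.{0} := EMU σ.toSpaceFunctor (lineIso σ.toSpaceFunctor)

variable {p : ℕ} (hp : p.Prime) (h2 : p ≠ 2)

/-- the regular sequence `p, v_1, v_2, …` -/
abbrev GM : RegSeq p (EM σ).A := regMU _ _ hp h2

/-- **The coefficients of `MU`.** -/
def QG : Coef (SC.sph (De p)) ((sE p).obj MG.X) (GM σ hp h2) :=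
  @coef _ _ _ _ _ _ (sG p) _ _ (EM σ) (uLoc_sG p) (EMU_repUniq _ _) _ (sGOne p) (EMU_zsmul _ _) p hp
    (not_dvd_n0 hp) (monMG p) (mul_sG p) (EMU_qData _ _ hp h2).odd_torsion
    (EMU_qData _ _ hp h2).odd_div (GM σ hp h2) fun _ => rfl

theorem hasCls_QG : @HasCls (EM σ) _ _ _ _ (sG p) _ (monMG p) _ _ (QG σ hp h2) :=
  fun c c' K e _ φ x y a _ hd hx ha => P.cl_of_flat c c' K e φ x y a hd hx ha (uLoc_sG p)

theorem isV_zero_QG : (QG σ hp h2).IsV 0 ((p : ℤ) • MonObj.one (X := (sE p).obj MG.X)) :=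
  @P.isV_zero _ _ _ _ _ _ (sG p) _ _ (EM σ) (uLoc_sG p) (EMU_repUniq _ _) _ (sGOne p)
    (EMU_zsmul _ _) p hp (not_dvd_n0 hp) (monMG p) (one_sG p) (mul_sG p) _ _ _ _

theorem detM_QG [Fact p.Prime] (h : DetO p (EM σ) (GM σ hp h2)) :
    DetM p fun m => (QG σ hp h2).IsV m := detM_of h _ (hasCls_QG σ hp h2)

include σ

variable (p) in
theorem thom_MG : Thom ((sE p).obj MG.X) (scMod (De p)) :=
  @P.thom _ _ _ _ _ _ (sG p) _ _ (EM σ) (uLoc_sG p) (EMU_repUniq _ _) (monMG p) (one_sG p) _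
    (Functor.isoWhiskerLeft FCP.ι (Functor.isoWhiskerRight (lanJ iG) (sE p)).symm)

theorem prof_MG' (P₀ Lm : ℕ) (hp : 0 < p) :
    V.Prof (tE p) (V.par p P₀ Lm hp) ((sE p).obj MG.X) 0 0 :=
  prof_MG (fun _ hl x => P.eq_zero_of_neg (E := EM σ) (uLoc_sG p) (EMU_repUniq _ _) (sGOne p) hl x)
    P₀ Lm hp

include hp h2 in
/-- **OUT** for `MU` -/
theorem hasV_QG {lam n : ℕ} {a : ℕ → Lam} {T : CommMon MM} (hl : 2 ≤ lam) (hn : lam ^ (n + 1) ≤ p)
    (tc : TC (okT p lam) T0 (n + 1) T) (hd : tc.All (DetS (QG σ hp h2) a (lam ^ ·))) :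
    P257.St.HasV σ p n :=
  hasV_okT hp le0_MG wt_MG posT_MG hl hn tc hd h2 (thom_MG σ p) σ

end Vale.Agent.P257.W
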