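import Vale.Agent.P257.P.MU1
import Vale.Agent.P251.H.PQMap
import Vale.Agent.P251.H.PQLC
import Mathlib.CategoryTheory.Monoidal.CommMon_

/-!
# P257, part P: the strictly commutative orthogonal ring spectrum `MU`

`MUo a = Map(S^a, N a)`, `N a = Th(|a|, a ⊕ a)`; a morphism `(A, w) : a ⟶ b` sends `φ` to
`t ↦ (A, w + i (t - A Aᵀ t)) φ(Aᵀ t)`.  The multiplication is the direct sum.

* `ev φ t` the value of a point `φ` of `MUo a`; `ev_ext`, `ev_act`, `ev_mul`, `ev_one`;
* `MUc : CommMon (EF O)`.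
-/

set_option linter.unusedSectionVars false

open CategoryTheory MonoidalCategory Topology OnePoint Filter Matrix

noncomputable section

namespace Vale.Agent.P257.P

open Vale.Agent.P251.G Vale.Agent.P257.D Vale.Agent.P257.D.O
open Vale.Agent.P251.G.LC (smash smash_coe_coe smash_infty_left smash_infty_right)
open Vale.Agent.P251.H (CH PQ)
open Vale.Agent.P251.H.PQ (LCPQ μLC ofLC)

theorem _root_.Vale.Agent.P257.D.PropFn.tendsto_atTop {X : Type} [TopologicalSpace X] {N : X → ℝ}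
    (h : PropFn N) : Tendsto N (cocompact X) atTop := by
  rw [Filter.tendsto_atTop]
  intro r
  refine mem_of_superset (h.cpt r).compl_mem_cocompact fun x hx => ?_
  simp only [Set.mem_compl_iff, Set.mem_ofPred_eq, not_le] at hx
  exact hx.le

variable {a b c d : O}

/-- the Thom space `Th(|a|, a ⊕ a)` -/
abbrev NT (a : O) : Type := Th (Fintype.card a.El) (a.El ⊕ a.El)

/-- the Thom space `Th(|a|, a ⊕ a)` as an object of `LC` -/
abbrev N (a : O) : LC := LC.of (NT a)

/-- triples `(A, w, t)` with `w` and `t` orthogonal to the image of `A` -/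
def W (a b : O) : Type := {p : OH a.El b.El × (b.El → ℝ) // p.1.Aᵀ *ᵥ p.2 = 0}

instance : TopologicalSpace (W a b) := instTopologicalSpaceSubtype

instance : T2Space (W a b) := inferInstanceAs (T2Space (Subtype _))

theorem W.isClosedEmbedding : IsClosedEmbedding (Subtype.val : W a b → _) :=
  IsClosed.isClosedEmbedding_subtypeVal (isClosed_eq (by fun_prop) continuous_const)

instance : LocallyCompactSpace (W a b) := W.isClosedEmbedding.locallyCompactSpace

/-- the proper function on `W a b` -/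
def W.nrm (p : W a b) : ℝ := p.1.1.nrm + p.1.2 ⬝ᵥ p.1.2

theorem W.propFn : PropFn (W.nrm : W a b → ℝ) where
  cont := (OH.propFn_nrm.prod (propFn_dotProduct b.El)).cont.comp continuous_subtype_val
  nonneg p := (OH.propFn_nrm.prod (propFn_dotProduct b.El)).nonneg p.1
  cpt M := W.isClosedEmbedding.isCompact_preimage
    ((OH.propFn_nrm.prod (propFn_dotProduct b.El)).cpt M)

/-- the point `(A, w, t - A Aᵀ t)` -/
def wp (f : OH a.El b.El) (t : b.El → ℝ) : W a b := ⟨(f, prj f t), transpose_prj f t⟩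

/-- splitting off the component in the image -/
def spLC (a b : O) : H a b ⊗ V b ⟶ LC.of (W a b) ⊗ V a :=
  LC.ofProper (X := H a b ⊗ V b) (Y := LC.of (W a b) ⊗ V a)
    (fun p : OH a.El b.El × (b.El → ℝ) => (wp p.1 p.2, p.1.Aᵀ *ᵥ p.2))
    (Continuous.prodMk (Continuous.subtype_mk (by unfold prj; fun_prop) _) (by fun_prop))
    ((OH.propFn_nrm.prod (propFn_dotProduct b.El)).tendsto_cocompact
      (W.propFn.prod (propFn_dotProduct a.El)).cont (fun p => by
        change p.1.nrm + p.2 ⬝ᵥ p.2 ≤ p.1.nrm + prj p.1 p.2 ⬝ᵥ prj p.1 p.2 + _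
        rw [dot_prj p.1 p.2, add_assoc]))

theorem app_spLC (f : OH a.El b.El) (t : b.El → ℝ) :
    LC.app (spLC a b) (smash (f : OnePoint _) (t : OnePoint _)) =
      smash (wp f t : OnePoint (W a b)) ((f.Aᵀ *ᵥ t : a.El → ℝ) : OnePoint _) := rfl

theorem continuous_fA {X : Type} [TopologicalSpace X] {f : X → OH a.El b.El} (hf : Continuous f) :
    Continuous fun x => fA (f x) :=
  Continuous.matrix_fromBlocks (by fun_prop) continuous_const continuous_const (by fun_prop)

theorem continuous_fQ {X : Type} [TopologicalSpace X] {f : X → OH a.El b.El} (hf : Continuous f) :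
    Continuous fun x => fQ (f x) :=
  Continuous.matrix_fromBlocks (by fun_prop) continuous_const continuous_const continuous_const

theorem continuous_fz {X : Type} [TopologicalSpace X] {f : X → OH a.El b.El} (hf : Continuous f)
    {t : X → b.El → ℝ} (ht : Continuous t) : Continuous fun x => fz (f x) (t x) := by
  have h : Continuous fun x => cv (f x).w (prj (f x) (t x)) := by unfold prj; fun_prop
  refine continuous_pi fun i => ?_
  rcases i with i | i
  · exact (continuous_apply i).comp h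
  · exact continuous_const

theorem continuous_twFun {X : Type} [TopologicalSpace X] {f : X → OH a.El b.El}
    (hf : Continuous f) {t : X → b.El → ℝ} (ht : Continuous t) {x : X → NT a}
    (hx : Continuous x) : Continuous fun k => twFun (f k) (t k) (x k) := by
  refine Continuous.subtype_mk (Continuous.prodMk ?_ ?_) _
  · exact (((continuous_fA hf).matrix_mul (Th.continuous_P.comp hx)).matrix_mul
      (continuous_fA hf).matrix_conjTranspose).add (continuous_fQ hf)
  · exact ((continuous_fA hf).matrix_mulVec (Th.continuous_v.comp hx)).add (continuous_fz hf ht)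

/-- the structure map of the Thom spaces -/
def tnLC (a b : O) : LC.of (W a b) ⊗ N a ⟶ N b :=
  LC.ofProper (X := LC.of (W a b) ⊗ N a) (Y := N b)
    (fun p : W a b × NT a => twFun p.1.1.1 p.1.1.2 p.2)
    (continuous_twFun (continuous_fst.comp (continuous_subtype_val.comp continuous_fst))
      (continuous_snd.comp (continuous_subtype_val.comp continuous_fst)) continuous_snd) (by
      rw [Th.tendsto_cocompact_iff]
      have : (fun p : W a b × NT a => nsq (twFun p.1.1.1 p.1.1.2 p.2).v) =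
          fun p : W a b × NT a => p.1.nrm + nsq p.2.v := by
        funext p
        rw [nsq_twFun_v, prj_of_orth _ p.1.2]
        rfl
      exact this ▸ tendsto_add_cocompact W.propFn.tendsto_atTop Th.tendsto_nsq W.propFn.nonneg
        (fun _ => nsq_nonneg _))

/-- the structure map on one-point compactifications -/
def tw (f : OH a.El b.El) (t : b.El → ℝ) (x : OnePoint (NT a)) : OnePoint (NT b) :=
  OnePoint.map (twFun f t) x

@[simp] theorem tw_coe (f : OH a.El b.El) (t : b.El → ℝ) (x : NT a) :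
    tw f t (x : OnePoint _) = (twFun f t x : OnePoint _) := rfl

@[simp] theorem tw_infty (f : OH a.El b.El) (t : b.El → ℝ) : tw f t ∞ = ∞ := rfl

theorem app_tnLC (f : OH a.El b.El) (t : b.El → ℝ) (x : OnePoint (NT a)) :
    LC.app (tnLC a b) (smash (wp f t : OnePoint (W a b)) x) = tw f t x := by
  induction x using OnePoint.rec with
  | infty => rw [smash_infty_right]; rfl
  | coe x => exact congrArg _ (congrFun (twFun_prj f t) x)

theorem tw_comp (f : OH a.El b.El) (g : OH b.El c.El) (t : c.El → ℝ) (x : OnePoint (NT a)) :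
    tw (f.comp g) t x = tw g t (tw f (g.Aᵀ *ᵥ t) x) := by
  induction x using OnePoint.rec with
  | infty => rfl
  | coe x => exact congrArg _ (twFun_comp f g t x)

theorem tw_refl (t : a.El → ℝ) (x : OnePoint (NT a)) :
    tw (OH.ofEquiv (Equiv.refl a.El)) t x = x := by
  induction x using OnePoint.rec with
  | infty => rfl
  | coe x => exact congrArg _ (twFun_refl t x)

/-- a morphism of spaces as a morphism of `PQ` -/
def lmap {X Y : LC} (f : X ⟶ Y) : ofLC X ⟶ ofLC Y := LCPQ.map f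

theorem app_lmap {X Y : LC} (f : X ⟶ Y) (x : OnePoint X) : PQ.app (lmap f) x = LC.app f x := rfl

/-- the tensorator -/
def mu (X Y : LC) : ofLC X ⊗ ofLC Y ⟶ ofLC (X ⊗ Y) := (μLC X Y).hom

/-- the inverse tensorator -/
def mui (X Y : LC) : ofLC (X ⊗ Y) ⟶ ofLC X ⊗ ofLC Y := (μLC X Y).inv

/-- the values of `MU` -/
abbrev MUobj (a : O) : PQ := PQ.Map (ofLC (V a)) (ofLC (N a))

/-- the value of a point of `MU` at a vector -/
def ev0 (φ : OnePoint (MUobj a)) (t : OnePoint (a.El → ℝ)) : OnePoint (NT a) :=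
  PQ.app (PQ.toHom φ) t

@[simp] theorem ev0_infty_left (t : OnePoint (a.El → ℝ)) : ev0 (∞ : OnePoint (MUobj a)) t = ∞ := rfl

@[simp] theorem ev0_infty_right (φ : OnePoint (MUobj a)) : ev0 φ ∞ = ∞ := PQ.app_infty _

theorem ev0_ext {φ ψ : OnePoint (MUobj a)} (h : ∀ t : a.El → ℝ, ev0 φ t = ev0 ψ t) : φ = ψ :=
  PQ.toHom_injective (PQ.hom_ext h)

theorem continuous_ev0 {K : CH} {φ : K → OnePoint (MUobj a)} (hφ : (MUobj a).plot K φ)
    {t : K → OnePoint (a.El → ℝ)} (ht : Continuous t) : Continuous fun k => ev0 (φ k) (t k) :=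
  PQ.map_plot_app hφ ht

/-- the adjoint of the action -/
def actAdj (a b : O) : ofLC (V b) ⊗ (ofLC (H a b) ⊗ MUobj a) ⟶ ofLC (N b) :=
  (α_ _ _ _).inv ≫ (((β_ _ _).hom ≫ mu (H a b) (V b) ≫ lmap (spLC a b) ≫
    mui (LC.of (W a b)) (V a)) ▷ MUobj a) ≫ (α_ _ _ _).hom ≫
    (ofLC (LC.of (W a b)) ◁ PQ.uncurry (𝟙 (MUobj a))) ≫ mu (LC.of (W a b)) (N a) ≫
    lmap (tnLC a b)

theorem app_actAdj (t : b.El → ℝ) (f : OH a.El b.El) (φ : OnePoint (MUobj a)) :
    PQ.app (actAdj a b) (smash (t : OnePoint _) (smash (f : OnePoint _) φ)) =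
      tw f t (ev0 φ ((f.Aᵀ *ᵥ t : a.El → ℝ) : OnePoint _)) := by
  rw [← app_tnLC]
  unfold actAdj
  simp only [PQ.app_comp]
  rw [PQ.app_associator_inv_smash, PQ.app_whiskerRight_smash]
  simp only [PQ.app_comp]
  rw [PQ.app_braiding_smash]
  have h : PQ.app (mui (LC.of (W a b)) (V a)) (PQ.app (lmap (spLC a b))
      (PQ.app (mu (H a b) (V b)) (smash (f : OnePoint (OH a.El b.El))
        (t : OnePoint (b.El → ℝ))))) = smash (wp f t : OnePoint (W a b))
        ((f.Aᵀ *ᵥ t : a.El → ℝ) : OnePoint (a.El → ℝ)) := rfl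
  rw [h, PQ.app_associator_smash, PQ.app_whiskerLeft_smash, PQ.app_uncurry_smash]
  rfl

/-- the action on points -/
def actPt (w : a ⟶ b) (φ : OnePoint (MUobj a)) : OnePoint (MUobj b) :=
  PQ.app (PQ.curry (actAdj a b)) (smash (toPt w) φ)

theorem ev0_actPt (f : OH a.El b.El) (φ : OnePoint (MUobj a)) (t : b.El → ℝ) :
    ev0 (actPt (mk f) φ) t = tw f t (ev0 φ ((f.Aᵀ *ᵥ t : a.El → ℝ) : OnePoint _)) :=
  (PQ.app_toHom_app_curry _ _ _).trans (app_actAdj t f φ)

theorem actPt_zero (φ : OnePoint (MUobj a)) : actPt (0 : a ⟶ b) φ = ∞ := by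
  rw [actPt, toPt_zero, smash_infty_left]
  exact PQ.app_infty _

theorem actPt_infty (w : a ⟶ b) : actPt w ∞ = ∞ := by
  rw [actPt, smash_infty_right]
  exact PQ.app_infty _

theorem actPt_plot {K : CH} {w : K → (a ⟶ b)} {φ : K → OnePoint (MUobj a)} (hw : Idx.plot K w)
    (hφ : (MUobj a).plot K φ) : (MUobj b).plot K (fun k => actPt (w k) (φ k)) :=
  PQ.app_plot (PQ.curry (actAdj a b)) (PQ.tensor_plot (ofLC (H a b)) (MUobj a) hw hφ)

/-- The orthogonal spectrum `MU`. -/
def MUo : EF O where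
  obj := MUobj
  map w := ⟨actPt w, actPt_infty w, fun K _ h => actPt_plot (Idx.plot_const K w) h⟩
  map_id a := PQ.hom_ext' fun φ => ev0_ext fun t => by
    refine (ev0_actPt _ φ t).trans ?_
    rw [tw_refl, ofEquiv_transpose_mulVec]
    rfl
  map_comp f g := PQ.hom_ext' fun φ => by
    change actPt (f ≫ g) φ = actPt g (actPt f φ)
    rcases hom_cases f with rfl | ⟨f, rfl⟩
    · rw [Limits.zero_comp, actPt_zero, actPt_zero, actPt_infty]
    rcases hom_cases g with rfl | ⟨g, rfl⟩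
    · rw [Limits.comp_zero, actPt_zero, actPt_zero]
    refine ev0_ext fun t => ?_
    rw [mk_comp, ev0_actPt, ev0_actPt, ev0_actPt, tw_comp, OH.comp_A, transpose_mul, mulVec_mulVec]
  map_zero a b := PQ.hom_ext' fun φ => actPt_zero φ
  map_plot _ _ _ hw hφ := actPt_plot hw hφ

theorem MUo_obj (a : O) : MUo.obj a = MUobj a := rfl

/-- the value of a point of `MU` at a vector -/
def ev (φ : OnePoint (MUo.obj a)) (t : OnePoint (a.El → ℝ)) : OnePoint (NT a) := ev0 φ t

@[simp] theorem ev_infty_left (t : OnePoint (a.El → ℝ)) :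
    ev (∞ : OnePoint (MUo.obj a)) t = ∞ := rfl

@[simp] theorem ev_infty_right (φ : OnePoint (MUo.obj a)) : ev φ ∞ = ∞ := ev0_infty_right φ

theorem ev_ext {φ ψ : OnePoint (MUo.obj a)} (h : ∀ t : a.El → ℝ, ev φ t = ev ψ t) : φ = ψ :=
  ev0_ext h

theorem continuous_ev {K : CH} {φ : K → OnePoint (MUo.obj a)} (hφ : (MUo.obj a).plot K φ)
    {t : K → OnePoint (a.El → ℝ)} (ht : Continuous t) : Continuous fun k => ev (φ k) (t k) :=
  continuous_ev0 hφ ht

/-- the point of `MU` given by a map `S^a → N a` -/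
def ofMap (f : V a ⟶ N a) : OnePoint (MUo.obj a) := PQ.ofHom (lmap f)

theorem ev_ofMap (f : V a ⟶ N a) (t : OnePoint (a.El → ℝ)) : ev (ofMap f) t = LC.app f t :=
  congrArg (fun g : ofLC (V a) ⟶ ofLC (N a) => PQ.app g t) (PQ.toHom_ofHom (lmap f))

theorem ev_act (f : OH a.El b.El) (φ : OnePoint (MUo.obj a)) (t : b.El → ℝ) :
    ev (MUo.act (mk f) φ) t = tw f t (ev φ ((f.Aᵀ *ᵥ t : a.El → ℝ) : OnePoint _)) :=
  ev0_actPt f φ t

/-! ### The multiplication -/

theorem card_tensor (a b : O) :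
    Fintype.card a.El + Fintype.card b.El = Fintype.card (a ⊗ b).El := Fintype.card_sum.symm

/-- the direct sum -/
def sumN (a b : O) : N a ⊗ N b ⟶ N (a ⊗ b) :=
  Th.sum (card_tensor a b) ≫ Th.map (J := (a ⊗ b).El ⊕ (a ⊗ b).El) (injMat (shf a.El b.El).symm)
    (injMat_isom (shf a.El b.El).symm.injective)

/-- the direct sum on one-point compactifications -/
def sm' (x : OnePoint (NT a)) (y : OnePoint (NT b)) : OnePoint (NT (a ⊗ b)) :=
  LC.app (sumN a b) (smash x y)

/-- the direct sum, typed with codes -/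
def smF (x : NT a) (y : NT b) : NT (a ⊗ b) := sumFun' x y

@[simp] theorem sm'_coe (x : NT a) (y : NT b) :
    sm' (x : OnePoint (NT a)) (y : OnePoint (NT b)) = (smF x y : OnePoint (NT (a ⊗ b))) := rfl

@[simp] theorem sm'_infty_left (y : OnePoint (NT b)) : sm' (∞ : OnePoint (NT a)) y = ∞ := by
  rw [sm', smash_infty_left]; rfl

@[simp] theorem sm'_infty_right (x : OnePoint (NT a)) : sm' x (∞ : OnePoint (NT b)) = ∞ := by
  rw [sm', smash_infty_right]; rfl

theorem smF_P (x : NT a) (y : NT b) :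
    (smF x y).P = (fromBlocks x.P 0 0 y.P).submatrix (shf a.El b.El) (shf a.El b.El) :=
  sumFun'_P x y

theorem smF_v (x : NT a) (y : NT b) : (smF x y).v = Sum.elim x.v y.v ∘ shf a.El b.El :=
  sumFun'_v x y

theorem tw_tens (f : OH a.El b.El) (g : OH c.El d.El) (t : b.El → ℝ) (t' : d.El → ℝ)
    (x : OnePoint (NT a)) (y : OnePoint (NT c)) :
    tw (tens f g) (vec t t') (sm' x y) = sm' (tw f t x) (tw g t' y) := by
  induction x using OnePoint.rec with
  | infty => simp
  | coe x =>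
    induction y using OnePoint.rec with
    | infty => simp
    | coe y => exact congrArg _ (twFun_tensor f g t t' x y)

/-- splitting of a vector of `a ⊗ b` -/
def splitV (a b : O) : V (a ⊗ b) ≅ V a ⊗ V b :=
  LC.ofHomeo (X := V (a ⊗ b)) (Y := V a ⊗ V b) (Homeomorph.sumArrowHomeomorphProdArrow)

theorem app_splitV (t : a.El → ℝ) (t' : b.El → ℝ) :
    LC.app (splitV a b).hom (vec t t' : OnePoint _) = smash (t : OnePoint _) (t' : OnePoint _) :=
  rfl

/-- the multiplication on levels -/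
def mulPQ (a b : O) : MUobj a ⊗ MUobj b ⟶ MUobj (a ⊗ b) :=
  PQ.mapTensor _ _ _ _ ≫ PQ.mapLeft (lmap (splitV a b).hom ≫ mui (V a) (V b)) _ ≫
    PQ.mapRight _ (mu (N a) (N b) ≫ lmap (sumN a b))

theorem ev0_mulPQ (φ : OnePoint (MUobj a)) (ψ : OnePoint (MUobj b)) (t : a.El → ℝ)
    (t' : b.El → ℝ) :
    ev0 (PQ.app (mulPQ a b) (smash φ ψ)) (vec t t') = sm' (ev0 φ t) (ev0 ψ t') := by
  unfold ev0 mulPQ
  rw [PQ.app_comp, PQ.app_comp, PQ.toHom_app_mapRight, PQ.toHom_app_mapLeft,
    PQ.toHom_app_mapTensor_smash]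
  simp only [PQ.app_comp]
  have h := PQ.app_tensorHom_smash (PQ.toHom φ) (PQ.toHom ψ)
    (t : OnePoint (a.El → ℝ)) (t' : OnePoint (b.El → ℝ))
  exact congrArg (LC.app (sumN a b)) h

/-- the multiplication on points -/
def mulPt (φ : OnePoint (MUo.obj a)) (ψ : OnePoint (MUo.obj b)) : OnePoint (MUo.obj (a ⊗ b)) :=
  PQ.app (mulPQ a b) (smash φ ψ)

theorem ev_mulPt (φ : OnePoint (MUo.obj a)) (ψ : OnePoint (MUo.obj b)) (t : a.El → ℝ)
    (t' : b.El → ℝ) : ev (mulPt φ ψ) (vec t t') = sm' (ev φ t) (ev ψ t') := ev0_mulPQ φ ψ t t'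

theorem ev_ext₂ {φ ψ : OnePoint (MUo.obj (a ⊗ b))}
    (h : ∀ (t : a.El → ℝ) (t' : b.El → ℝ), ev φ (vec t t') = ev ψ (vec t t')) : φ = ψ :=
  ev_ext fun t => by
    obtain ⟨t, t', rfl⟩ := vec_surj t
    exact h t t'

theorem tens_transpose_mulVec (f : OH a.El b.El) (g : OH c.El d.El) (t : b.El → ℝ)
    (t' : d.El → ℝ) : (tens f g).Aᵀ *ᵥ vec t t' = vec (f.Aᵀ *ᵥ t) (g.Aᵀ *ᵥ t') :=
  tensor_transpose_mulVec f g t t'

theorem mulPt_infty_left (ψ : OnePoint (MUo.obj b)) : mulPt (∞ : OnePoint (MUo.obj a)) ψ = ∞ :=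
  (congrArg (PQ.app (mulPQ a b)) (smash_infty_left ψ)).trans (PQ.app_infty _)

theorem mulPt_infty_right (φ : OnePoint (MUo.obj a)) :
    mulPt φ (∞ : OnePoint (MUo.obj b)) = ∞ :=
  (congrArg (PQ.app (mulPQ a b)) (smash_infty_right φ)).trans (PQ.app_infty _)

/-- the multiplication as a bilinear morphism -/
def mulBil : EF.Bil MUo MUo MUo where
  toFun := mulPt
  infty_left := mulPt_infty_left
  infty_right := mulPt_infty_right
  nat u v φ ψ := by
    rcases hom_cases u with rfl | ⟨f, rfl⟩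
    · rw [EF.act_zero, mulPt_infty_left, O.zero_tensorHom, EF.act_zero]
    rcases hom_cases v with rfl | ⟨g, rfl⟩
    · rw [EF.act_zero, mulPt_infty_right, O.tensorHom_zero, EF.act_zero]
    refine ev_ext₂ fun t t' => ?_
    rw [ev_mulPt, ev_act, ev_act, mk_tensor, ev_act, tens_transpose_mulVec, ev_mulPt, tw_tens]
  plot hφ hψ := PQ.app_plot (mulPQ _ _) (PQ.tensor_plot _ _ hφ hψ)

/-- the point of `N 𝟙` -/
def onePtN : NT (𝟙_ O) :=
  Th.mk 0 0 (by rw [Fintype.card_eq_zero]; exact IsProj.zero) (mulVec_zero _)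

instance : CompactSpace (V (𝟙_ O)) := inferInstanceAs (CompactSpace (Empty → ℝ))

/-- the unit of `MU` -/
def onePtM : OnePoint (MUo.obj (𝟙_ O)) :=
  ofMap (LC.ofCompact (X := V (𝟙_ O)) (Y := N (𝟙_ O)) (fun _ => onePtN) continuous_const)

theorem ev_onePtM (t : (𝟙_ O).El → ℝ) : ev onePtM t = (onePtN : OnePoint _) := ev_ofMap _ _

theorem tw_ofEquiv_eq (e : a.El ≃ b.El) (t : b.El → ℝ) {x : NT a} {y : NT b}
    (h1 : x.P.submatrix (Equiv.sumCongr e e).symm (Equiv.sumCongr e e).symm = y.P)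
    (h2 : x.v ∘ (Equiv.sumCongr e e).symm = y.v) :
    tw (OH.ofEquiv e) t (x : OnePoint _) = (y : OnePoint _) :=
  congrArg _ (Th.ext ((twFun_ofEquiv_P e t x).trans h1) ((twFun_ofEquiv_v e t x).trans h2))

theorem tw_asci (t : ((a ⊗ b) ⊗ c).El → ℝ) (x : OnePoint (NT a)) (y : OnePoint (NT b))
    (z : OnePoint (NT c)) : tw (asci a b c) t (sm' x (sm' y z)) = sm' (sm' x y) z := by
  induction x using OnePoint.rec with
  | infty => simp
  | coe x =>
    induction y using OnePoint.rec with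
    | infty => simp
    | coe y =>
      induction z using OnePoint.rec with
      | infty => simp
      | coe z =>
        rw [sm'_coe, sm'_coe, sm'_coe, sm'_coe]
        refine tw_ofEquiv_eq (a := a ⊗ b ⊗ c) (b := (a ⊗ b) ⊗ c) _ t ?_ ?_
        · rw [smF_P, smF_P, smF_P, smF_P]
          ext (((i | i) | i) | ((i | i) | i)) (((j | j) | j) | ((j | j) | j)) <;> rfl
        · rw [smF_v, smF_v, smF_v, smF_v]
          ext (((i | i) | i) | ((i | i) | i)) <;> rfl

theorem tw_brd (t : (b ⊗ a).El → ℝ) (x : OnePoint (NT a)) (y : OnePoint (NT b)) :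
    tw (brd a b) t (sm' x y) = sm' y x := by
  induction x using OnePoint.rec with
  | infty => simp
  | coe x =>
    induction y using OnePoint.rec with
    | infty => simp
    | coe y =>
      rw [sm'_coe, sm'_coe]
      refine tw_ofEquiv_eq (a := a ⊗ b) (b := b ⊗ a) _ t ?_ ?_
      · rw [smF_P, smF_P]
        ext ((i | i) | (i | i)) ((j | j) | (j | j)) <;> rfl
      · rw [smF_v, smF_v]
        ext ((i | i) | (i | i)) <;> rfl

theorem tw_lui (t : (𝟙_ O ⊗ a).El → ℝ) (x : OnePoint (NT a)) :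
    tw (lui a) t x = sm' (onePtN : OnePoint _) x := by
  induction x using OnePoint.rec with
  | infty => simp
  | coe x =>
    rw [sm'_coe]
    refine tw_ofEquiv_eq (a := a) (b := 𝟙_ O ⊗ a) _ t ?_ ?_
    · rw [smF_P]
      ext ((i | i) | (i | i)) ((j | j) | (j | j)) <;> first | exact i.elim | exact j.elim | rfl
    · rw [smF_v]
      ext ((i | i) | (i | i)) <;> first | exact i.elim | rfl

theorem mulPt_assoc (φ : OnePoint (MUo.obj a)) (ψ : OnePoint (MUo.obj b))
    (χ : OnePoint (MUo.obj c)) :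
    mulPt (mulPt φ ψ) χ = MUo.act (α_ a b c).inv (mulPt φ (mulPt ψ χ)) := by
  refine ev_ext₂ fun t t'' => ?_
  obtain ⟨t, t', rfl⟩ := vec_surj t
  have h : (asci a b c).Aᵀ *ᵥ vec (vec t t') t'' = vec t (vec t' t'') := by
    refine (ofEquiv_transpose_mulVec _ _).trans ?_
    funext x; rcases x with x | x | x <;> rfl
  rw [associator_inv, ev_act, h, ev_mulPt, ev_mulPt, ev_mulPt, ev_mulPt, tw_asci]

theorem mulPt_comm (φ : OnePoint (MUo.obj a)) (ψ : OnePoint (MUo.obj b)) :
    MUo.act (β_ b a).hom (mulPt ψ φ) = mulPt φ ψ := by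
  refine ev_ext₂ fun t t' => ?_
  have h : (brd b a).Aᵀ *ᵥ vec t t' = vec t' t := by
    refine (ofEquiv_transpose_mulVec _ _).trans ?_
    funext x; rcases x with x | x <;> rfl
  rw [braiding_hom, ev_act, h, ev_mulPt, ev_mulPt, tw_brd]

theorem mulPt_one_left (φ : OnePoint (MUo.obj a)) :
    mulPt onePtM φ = MUo.act (λ_ a).inv φ := by
  refine ev_ext₂ fun t t' => ?_
  have h : (lui a).Aᵀ *ᵥ vec t t' = t' := ofEquiv_transpose_mulVec _ _
  rw [leftUnitor_inv, ev_act, h, ev_mulPt, ev_onePtM, tw_lui]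

theorem mulPt_act (u : a ⟶ b) (v : c ⟶ d) (φ : OnePoint (MUo.obj a)) (ψ : OnePoint (MUo.obj c)) :
    mulPt (MUo.act u φ) (MUo.act v ψ) = MUo.act (u ⊗ₘ v) (mulPt φ ψ) := mulBil.nat u v φ ψ

theorem mul_comm_MUo : (β_ MUo MUo).hom ≫ EF.tensorDesc mulBil = EF.tensorDesc mulBil := by
  refine EF.tensor_ext fun a b φ ψ => ?_
  rw [EF.fn_comp, EF.braiding_tm, EF.fn_act, EF.tensorDesc_tm, EF.tensorDesc_tm]
  exact mulPt_comm φ ψ

theorem one_mul_MUo : EF.yo onePtM ▷ MUo ≫ EF.tensorDesc mulBil = (λ_ MUo).hom := by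
  refine EF.tensor_ext fun a b p φ => ?_
  rw [EF.fn_comp, EF.whiskerRight_tm, EF.tensorDesc_tm, EF.leftUnitor_tm, EF.fn_yo, EF.act_comp,
    ← mulPt_one_left, ← tensorHom_id, ← mulPt_act, EF.act_id]
  rfl

instance : MonObj MUo where
  one := EF.yo onePtM
  mul := EF.tensorDesc mulBil
  one_mul := one_mul_MUo
  mul_one := by
    rw [← mul_comm_MUo, BraidedCategory.braiding_naturality_right_assoc, one_mul_MUo,
      braiding_leftUnitor]
  mul_assoc := by
    refine EF.tensor_ext₃ fun a b c φ ψ χ => ?_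
    rw [EF.fn_comp, EF.whiskerRight_tm, EF.tensorDesc_tm, EF.tensorDesc_tm, EF.fn_comp,
      EF.associator_tm, EF.fn_act, EF.fn_comp, EF.whiskerLeft_tm, EF.tensorDesc_tm,
      EF.tensorDesc_tm]
    exact mulPt_assoc φ ψ χ

instance : IsCommMonObj MUo := ⟨mul_comm_MUo⟩

/-- **`MU` as a commutative orthogonal ring spectrum.** -/
def MUc : CommMon (EF O) := ⟨MUo⟩

theorem fn_mul (φ : OnePoint (MUo.obj a)) (ψ : OnePoint (MUo.obj b)) :
    EF.fn (MonObj.mul (X := MUo)) (EF.tm φ ψ) = mulPt φ ψ := EF.tensorDesc_tm _ _ _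

theorem fn_one (u : 𝟙_ O ⟶ a) :
    EF.fn (MonObj.one (X := MUo)) (EF.pr u) = MUo.act u onePtM := EF.fn_yo_pr _ _

end Vale.Agent.P257.P
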