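import Vale.Agent.P257.P.Cel
import Vale.Agent.P257.P.MU2
import Vale.Agent.P251.Q.Thom
import Vale.Agent.P251.H.HCofJ

/-!
# P257, part P: maps from cells to `MU` are maps to Thom spaces

`flat : (Cel c K ⟶ MUo) ≃ (K ⊗ V c ⟶ N c)`, natural in `K` and for isomorphisms of `O`,
multiplicative, compatible with homotopies.
-/

open CategoryTheory MonoidalCategory Limits Functor.LaxMonoidal Functor.OplaxMonoidal OnePoint
open Matrix MonObj

noncomputable section

namespace Vale.Agent.P257.P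

open Vale.Agent.P251.H (CH PQ)
open Vale.Agent.P251.H.StabInput (MHtpy inc map_incl_δ)
open Vale.Agent.P251.G Vale.Agent.P251.Q
open Vale.Agent.P251.G.LC (RR II app smash Homotopic)
open Vale.Agent.P257.D Vale.Agent.P257.D.EF Vale.Agent.P257.E
open Vale.Agent.P257.D.O (V vec vfst vsnd spt vsm)

section thM

variable {n n' : ℕ} {I J : Type} [Fintype I] [Fintype J] [DecidableEq I] [DecidableEq J]

/-- the map of Thom spaces induced by an isometry -/
def thM (h : n = n') (u : Matrix J I ℂ) (hu : uᴴ * u = 1) : LC.of (Th n I) ⟶ LC.of (Th n' J) :=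
  Th.map u hu ≫ eqToHom (by rw [h])

theorem thM_rfl (u : Matrix J I ℂ) (hu : uᴴ * u = 1) : thM (rfl : n = n) u hu = Th.map u hu :=
  Category.comp_id _

theorem app_thM (h : n = n') (u : Matrix J I ℂ) (hu : uᴴ * u = 1) {x : Th n I} {y : Th n' J}
    (h1 : u * x.P * uᴴ = y.P) (h2 : u *ᵥ x.v = y.v) :
    app (thM h u hu) (x : OnePoint _) = (y : OnePoint _) := by
  subst h
  rw [thM_rfl]
  exact congrArg OnePoint.some (Th.ext h1 h2)

end thM

variable {b c c' : O} {K K' : LC}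

/-- the map to a Thom space given by a map from a cell to `MU` -/
def flat (y : Cel c K ⟶ MUo) : K ⊗ V c ⟶ N c :=
  PQ.preLC (mui K (V c) ≫ (β_ _ _).hom ≫ PQ.uncurry (gpHom c K ≫ Hom.app y c))

theorem app_flat (y : Cel c K ⟶ MUo) (k : OnePoint K) (t : OnePoint (V c)) :
    app (flat y) (smash k t) = ev (fn y (gp c k)) t := by
  change PQ.app (PQ.uncurry (gpHom c K ≫ Hom.app y c))
    (PQ.app (β_ (PQ.ofLC K) (PQ.ofLC (V c))).hom (smash k t)) = _
  rw [PQ.app_braiding_smash, PQ.app_uncurry_smash]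
  rfl

/-- the map from a cell to `MU` given by a map to a Thom space -/
def ofFlat (g : K ⊗ V c ⟶ N c) : Cel c K ⟶ MUo :=
  ofFam (X := MUo) (PQ.curry ((β_ _ _).hom ≫ mu K (V c) ≫ lmap g))

theorem ev_ofFlat (g : K ⊗ V c ⟶ N c) (k : OnePoint K) (t : OnePoint (V c)) :
    ev (fn (ofFlat g) (gp c k)) t = app g (smash k t) := by
  refine (congrArg (ev · t) (fn_ofFam (X := MUo) _ k)).trans ?_
  refine (PQ.app_toHom_app_curry _ _ _).trans ?_
  rw [PQ.app_comp, PQ.app_braiding_smash]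
  rfl

@[simp] theorem flat_ofFlat (g : K ⊗ V c ⟶ N c) : flat (ofFlat g) = g :=
  LC.tensor_ext fun k t => by rw [app_flat, ev_ofFlat]

theorem flat_injective : Function.Injective (flat : (Cel c K ⟶ MUo) → _) := fun y y' h =>
  cel_ext fun k => ev_ext fun t => by rw [← app_flat, ← app_flat, h]

@[simp] theorem ofFlat_flat (y : Cel c K ⟶ MUo) : ofFlat (flat y) = y :=
  flat_injective (flat_ofFlat _)

variable (c K) in
/-- Maps from a cell to `MU` are maps to a Thom space. -/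
@[simps] def flatEquiv : (Cel c K ⟶ MUo) ≃ (K ⊗ V c ⟶ N c) :=
  ⟨flat, ofFlat, ofFlat_flat, flat_ofFlat⟩

theorem flat_zero : flat (0 : Cel c K ⟶ MUo) = 0 :=
  LC.tensor_ext fun k t => by rw [app_flat, fn_zero, ev_infty_left, LC.app_zero]

theorem app_flat_cm (φ : OH c.El c'.El) (f : K' ⟶ K) (y : Cel c K ⟶ MUo) (k : OnePoint K')
    (t : c'.El → ℝ) : app (flat (cm (O.mk φ) f ≫ y)) (smash k (t : OnePoint _)) =
      tw φ t (app (flat y) (smash (app f k) ((φ.Aᵀ *ᵥ t : c.El → ℝ) : OnePoint _))) := by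
  rw [app_flat, app_flat, fn_comp, fn_cm, fn_act, ev_act]

theorem flat_cm_left (f : K' ⟶ K) (y : Cel c K ⟶ MUo) :
    flat (cm (𝟙 c) f ≫ y) = f ▷ V c ≫ flat y :=
  LC.tensor_ext fun k t => by
    rw [LC.app_comp, LC.app_whiskerRight_smash, app_flat, app_flat, fn_comp, fn_cm, act_id]

/-- naturality in the space -/
theorem flat_whiskerLeft (f : K' ⟶ K) (y : Cel c K ⟶ MUo) :
    flat (rep c ◁ (jC O).map f ≫ y) = f ▷ V c ≫ flat y := by
  rw [← cm_left, flat_cm_left]

theorem transpose_isoOH (A : c ≅ c') (t : c'.El → ℝ) :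
    (O.isoOH A.hom).Aᵀ *ᵥ t = (O.isoOH A.inv).ap t := by
  have h : (O.isoOH A.hom).ap ((O.isoOH A.inv).ap t) = t := by
    rw [O.isoOH_ap_eq_iff, ← O.act_mk_coe, O.mk_isoOH, ← O.act_comp, A.inv_hom_id, O.act_id]
  conv_lhs => rw [← h, OH.ap, O.isoOH_w, add_zero, OH.iso]

theorem isoOH_mul_transpose (A : c ≅ c') : (O.isoOH A.hom).A * (O.isoOH A.hom).Aᵀ = 1 := by
  refine Matrix.ext_of_mulVec_single fun i => ?_
  have h : ∀ t, (O.isoOH A.hom).ap ((O.isoOH A.inv).ap t) = t := fun t => by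
    rw [O.isoOH_ap_eq_iff, ← O.act_mk_coe, O.mk_isoOH, ← O.act_comp, A.inv_hom_id, O.act_id]
  have h1 := h (Pi.single i 1)
  rw [OH.ap, O.isoOH_w, add_zero] at h1
  rw [← mulVec_mulVec, transpose_isoOH, h1, one_mulVec]

theorem card_of_iso (A : c ≅ c') : Fintype.card c.El = Fintype.card c'.El := by
  have h := trace_mul_comm (O.isoOH A.hom).A (O.isoOH A.hom).Aᵀ
  rw [isoOH_mul_transpose, OH.transpose_mul_self, trace_one, trace_one] at h
  exact_mod_cast h.symm

/-- the map of Thom spaces induced by an isomorphism of `O` -/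
def thA (A : c ≅ c') : N c ⟶ N c' := thM (card_of_iso A) (fA (O.isoOH A.hom)) (fA_isom _)

theorem tw_isoOH (A : c ≅ c') (t : c'.El → ℝ) (x : OnePoint (NT c)) :
    tw (O.isoOH A.hom) t x = app (thA A) x := by
  induction x using OnePoint.rec with
  | infty => exact (LC.app_infty (thA A)).symm
  | coe x =>
    refine (app_thM _ _ _ ?_ ?_).symm
    · rw [twFun_P, fQ, cx_conjTranspose, ← cx_mul, isoOH_mul_transpose, cx_one, sub_self,
        fromBlocks_zero, add_zero]
    · rw [twFun_v, fz, prj, mulVec_mulVec, isoOH_mul_transpose, one_mulVec, sub_self, O.isoOH_w,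
        cv_zero, Sum.elim_zero_zero, add_zero]

/-- naturality for isomorphisms of the index category -/
theorem flat_cm (A : c ≅ c') (f : K' ⟶ K) (y : Cel c K ⟶ MUo) :
    flat (cm A.hom f ≫ y) = (f ⊗ₘ VF.map A.inv) ≫ flat y ≫ thA A :=
  LC.tensor_ext fun k t => by
    rw [LC.app_comp, LC.app_comp, LC.app_tensorHom_smash, ← tw_isoOH A t, ← O.mk_isoOH A.inv,
      app_VF_map_mk, ← transpose_isoOH, ← app_flat_cm, O.mk_isoOH]

theorem flat_repMap (A : c ≅ c') (y : Cel c K ⟶ MUo) :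
    flat (repMap A.hom ▷ (jC O).obj K ≫ y) = K ◁ VF.map A.inv ≫ flat y ≫ thA A := by
  rw [← cm_right, flat_cm, id_tensorHom]

/-- the shuffle of the total spaces -/
def shT (c : O) (K : LC) (c' : O) (K' : LC) : (K ⊗ K') ⊗ V (c ⊗ c') ≅ (K ⊗ V c) ⊗ (K' ⊗ V c') :=
  LC.ofHomeo (X := (K ⊗ K') ⊗ V (c ⊗ c')) (Y := (K ⊗ V c) ⊗ (K' ⊗ V c'))
    (((Homeomorph.refl (K × K')).prodCongr (O.vecHomeo c c').symm).trans
      (Homeomorph.prodProdProdComm K K' (V c) (V c')))

theorem app_shT (k : OnePoint K) (k' : OnePoint K') (t : c.El → ℝ) (t' : c'.El → ℝ) :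
    app (shT c K c' K').hom (smash (smash k k') (vec t t' : OnePoint _)) =
      smash (smash k (t : OnePoint _)) (smash k' (t' : OnePoint _)) := by
  induction k using OnePoint.rec with
  | infty => simp only [LC.smash_infty_left]; exact LC.app_infty _
  | coe k =>
    induction k' using OnePoint.rec with
    | infty => simp only [LC.smash_infty_left, LC.smash_infty_right]; exact LC.app_infty _
    | coe k' => rfl

theorem shT_ext {Z : LC} {f g : (K ⊗ K') ⊗ V (c ⊗ c') ⟶ Z}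
    (h : ∀ (k : K) (k' : K') (t : c.El → ℝ) (t' : c'.El → ℝ),
      app f (smash (smash (k : OnePoint K) (k' : OnePoint K')) (vec t t' : OnePoint _)) =
        app g (smash (smash (k : OnePoint K) (k' : OnePoint K')) (vec t t' : OnePoint _))) :
    f = g :=
  LC.tensor_ext₃ fun k k' t => by
    obtain ⟨t, t', rfl⟩ := O.vec_surj t
    exact h k k' t t'

/-- multiplicativity -/
theorem flat_mul (y : Cel c K ⟶ MUo) (y' : Cel c' K' ⟶ MUo) :
    flat ((cT c K c' K').hom ≫ (y ⊗ₘ y') ≫ μ[MUo]) =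
      (shT c K c' K').hom ≫ (flat y ⊗ₘ flat y') ≫ sumN c c' :=
  shT_ext fun k k' t t' => by
    rw [LC.app_comp, LC.app_comp, app_shT, LC.app_tensorHom_smash, app_flat y, app_flat y']
    refine (app_flat (K := K ⊗ K') _ _ _).trans ?_
    rw [fn_comp, fn_comp, fn_cT, tensorHom_tm, fn_mul, ev_mulPt]
    rfl

/-- `ℝ^b × ℝ^b = ℂ^b` -/
def cpx (b : O) : V b ⊗ V b ≅ Cpow b.El :=
  LC.ofHomeo (X := V b ⊗ V b) (Y := Cpow b.El)
    { toFun := fun p : (b.El → ℝ) × (b.El → ℝ) => cv p.1 p.2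
      invFun := fun z : b.El → ℂ => (fun i => (z i).re, fun i => (z i).im)
      left_inv := fun _ => rfl
      right_inv := fun _ => rfl
      continuous_toFun := continuous_cv continuous_fst continuous_snd
      continuous_invFun := by
        change Continuous fun z : b.El → ℂ => ((fun i => (z i).re, fun i => (z i).im) :
          (b.El → ℝ) × (b.El → ℝ))
        fun_prop }

theorem app_cpx (w t : b.El → ℝ) : app (cpx b).hom (smash (w : OnePoint _) (t : OnePoint _)) =
    ((cv w t : b.El → ℂ) : OnePoint _) := rfl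

/-- the bottom cell of `N b` -/
def inN (b : O) : Cpow b.El ⟶ N b :=
  Th.incl' rfl ≫ Th.map (injMat Sum.inl) (injMat_isom Sum.inl_injective)

/-- the unit -/
theorem flat_lam0 (b : O) : flat (lam0 b ≫ η[MUo]) = (cpx b).hom ≫ inN b :=
  LC.tensor_ext fun w t => by
    rw [app_flat, fn_comp, fn_lam0, fn_one, O.spt_coe, ev_act, ev_onePtM, tw_coe]
    refine congrArg OnePoint.some (Th.ext ?_ ?_)
    · refine Eq.trans ?_ (injMat_inl_conj (1 : Matrix b.El b.El ℂ)).symm
      rw [twFun_P, fQ, show onePtN.P = 0 from rfl, Matrix.mul_zero, Matrix.zero_mul, zero_add,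
        show cx (OH.pt w : OH (𝟙_ O).El b.El).A = 0 from Subsingleton.elim _ _, Matrix.zero_mul,
        sub_zero]
    · refine Eq.trans ?_ (injMat_inl_mulVec (cv w t)).symm
      rw [twFun_v, fz, prj, show onePtN.v = 0 from rfl, mulVec_zero, zero_add,
        Subsingleton.elim (_ *ᵥ t) 0, mulVec_zero, sub_zero]
      rfl

theorem stb_comp {R : EF O} [MonObj R] (y : Cel c K ⟶ R) :
    stb b c K ≫ y = (cT b (V b) c K).hom ≫ ((lam0 b ≫ η[R]) ⊗ₘ y) ≫ μ[R] := by
  rw [stb, tensorHom_def', comp_whiskerRight, Category.assoc, Category.assoc, Category.assoc,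
    Category.assoc, MonObj.one_mul, whisker_exchange_assoc, leftUnitor_naturality]

theorem flat_stb (y : Cel c K ⟶ MUo) : flat (stb b c K ≫ y) =
    (shT b (V b) c K).hom ≫ (((cpx b).hom ≫ inN b) ⊗ₘ flat y) ≫ sumN b c := by
  rw [stb_comp, flat_mul, flat_lam0]

/-! ### Homotopies -/

theorem cm_incl {J : Type} [Idx J] [SphIdx J] (c : J) (K : LC) (t : unitInterval) :
    cm (𝟙 c) (LC.incl t K) ≫ (cI c K).hom = inc t (Cel c K) := by
  have h : (jC J).map (LC.incl t K) ≫ δ (jC J) K II =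
      P251.H.jincl (jC J) t ((jC J).obj K) := map_incl_δ (M := EF J) t K
  rw [cm_left]
  change rep c ◁ _ ≫ rep c ◁ δ (jC J) K II ≫ (α_ _ _ _).inv = P251.H.jincl (jC J) t _
  rw [← MonoidalCategory.whiskerLeft_comp_assoc, h, P251.H.jincl, P251.H.jincl]
  generalize ε (jC J) ≫ (jC J).map (LC.point (X := II) t) = x
  monoidal

/-- the shuffle of the cylinder -/
def shI (K Z : LC) : (K ⊗ Z) ⊗ II ≅ (K ⊗ II) ⊗ Z :=
  α_ _ _ _ ≪≫ whiskerLeftIso K (β_ _ _) ≪≫ (α_ _ _ _).symm

theorem incl_shI (K Z : LC) (t : unitInterval) :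
    LC.incl t (K ⊗ Z) ≫ (shI K Z).hom = LC.incl t K ▷ Z :=
  LC.tensor_ext fun _ _ => rfl

theorem homotopic_flat {y y' : Cel c K ⟶ MUo} (h : MHtpy y y') : Homotopic (flat y) (flat y') := by
  obtain ⟨H, h0, h1⟩ := h
  refine ⟨(shI K (V c)).hom ≫ flat ((cI c K).hom ≫ H), ?_, ?_⟩
  · rw [reassoc_of% incl_shI, ← flat_cm_left, reassoc_of% cm_incl]
    exact congrArg flat h0
  · rw [reassoc_of% incl_shI, ← flat_cm_left, reassoc_of% cm_incl]
    exact congrArg flat h1

theorem mHtpy_of_flat {y y' : Cel c K ⟶ MUo} (h : Homotopic (flat y) (flat y')) : MHtpy y y' := by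
  obtain ⟨H, h0, h1⟩ := h
  have k : ∀ t, flat (inc t (Cel c K) ≫ (cI c K).inv ≫
      ofFlat ((shI K (V c)).inv ≫ H)) = LC.incl t _ ≫ H := fun t => by
    rw [← cm_incl, Category.assoc, Iso.hom_inv_id_assoc, flat_cm_left, flat_ofFlat, ← incl_shI,
      Category.assoc, Iso.hom_inv_id_assoc]
  exact ⟨(cI c K).inv ≫ ofFlat ((shI K (V c)).inv ≫ H), flat_injective ((k 0).trans h0),
    flat_injective ((k 1).trans h1)⟩

end Vale.Agent.P257.P
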