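import Vale.Agent.P257.E.Lam

/-!
# P257, part P: the cells `rep c ⊗ j K`

* `gp k` the generating points, `cel_ext`, `ofFam`;
* `cm A f = repMap A ⊗ j f`, `cT : Cel (c ⊗ c') (K ⊗ K') ≅ Cel c K ⊗ Cel c' K'`;
* for orthogonal spectra: `lam0 b : Cel b (V b) ⟶ 𝟙` and the stabilisation
  `stb b c K : Cel (b ⊗ c) (V b ⊗ K) ⟶ Cel c K`.
-/

open CategoryTheory MonoidalCategory Limits Functor.LaxMonoidal Functor.OplaxMonoidal OnePoint

noncomputable section

namespace Vale.Agent.P257.P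

open Vale.Agent.P251.H (CH PQ)
open Vale.Agent.P251.G (LC)
open Vale.Agent.P251.G.LC (RR II app smash)
open Vale.Agent.P257.D Vale.Agent.P257.D.EF Vale.Agent.P257.E
open Vale.Agent.P257.D.O (V vec vfst vsnd spt vsm)

section general

variable {J : Type} [Idx J] {c c' c'' d d' : J} {K K' K'' L L' : LC} {X Y : EF J}

/-- the cells -/
abbrev Cel (c : J) (K : LC) : EF J := rep c ⊗ (jC J).obj K

/-- the generating points of a cell -/
def gp (c : J) (k : OnePoint K) : OnePoint ((Cel c K).obj c) :=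
  (Cel c K).act (ρ_ c).hom (tm (pr (𝟙 c)) (jm k (𝟙 _)))

theorem tm_eq_gp (k : OnePoint K) :
    tm (pr (𝟙 c)) (jm k (𝟙 (𝟙_ J))) = (Cel c K).act (ρ_ c).inv (gp c k) :=
  (act_hom_inv _ (ρ_ c) _).symm

@[simp] theorem gp_infty : gp c (∞ : OnePoint K) = ∞ := by
  rw [gp, jm_infty_left, tm_infty_right, act_infty]

theorem cel_ext {f g : Cel c K ⟶ X} (h : ∀ k, fn f (gp c k) = fn g (gp c k)) : f = g :=
  RF_ext fun k => by rw [tm_eq_gp, fn_act, fn_act, h]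

theorem cel_ext₂ {f g : Cel c (K ⊗ K') ⟶ X}
    (h : ∀ k k', fn f (gp c (K := K ⊗ K') (smash k k')) = fn g (gp c (K := K ⊗ K') (smash k k'))) :
    f = g :=
  cel_ext fun z => by
    obtain ⟨⟨k, k'⟩, rfl⟩ := P251.H.Sp0.smash_surjective (X := K) (Y := K') z
    exact h k k'

theorem cel_ext₃ {f g : Cel c ((K ⊗ K') ⊗ K'') ⟶ X}
    (h : ∀ k k' k'', fn f (gp c (K := (K ⊗ K') ⊗ K'') (smash (smash k k') k'')) =
      fn g (gp c (K := (K ⊗ K') ⊗ K'') (smash (smash k k') k''))) : f = g :=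
  cel_ext₂ fun z k'' => by
    obtain ⟨⟨k, k'⟩, rfl⟩ := P251.H.Sp0.smash_surjective (X := K) (Y := K') z
    exact h k k' k''

theorem cel_ext₃' {f g : Cel c (K ⊗ K' ⊗ K'') ⟶ X}
    (h : ∀ k k' k'', fn f (gp c (K := K ⊗ K' ⊗ K'') (smash k (smash k' k''))) =
      fn g (gp c (K := K ⊗ K' ⊗ K'') (smash k (smash k' k'')))) : f = g :=
  cel_ext₂ fun k z => by
    obtain ⟨⟨k', k''⟩, rfl⟩ := P251.H.Sp0.smash_surjective (X := K') (Y := K'') z
    exact h k k' k''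

theorem gp_plot {T : CH} {k : T → OnePoint K} (hk : Continuous k) :
    ((Cel c K).obj c).plot T fun t => gp c (k t) :=
  act_plot' _ _ (tm_plot (((rep c).obj c).plot_const _ _) (jm_plot hk (Idx.plot_const _ _)))

variable (c K) in
/-- the family of the generating points -/
def gpHom : PQ.ofLC K ⟶ (Cel c K).obj c := ⟨gp c, gp_infty, fun _ _ hk => gp_plot hk⟩

/-- the map out of a cell given by a family of points -/
def ofFam (γ : PQ.ofLC K ⟶ X.obj c) : Cel c K ⟶ X := (repF c (PQ.ofLC K)).hom ≫ smulYo γ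

theorem fn_ofFam (γ : PQ.ofLC K ⟶ X.obj c) (k : OnePoint K) :
    fn (ofFam γ) (gp c k) = PQ.app γ k := by
  rw [gp, fn_act]
  refine (congrArg (X.act (ρ_ c).hom) ((congrArg (fn (smulYo γ))
    (fn_repF_hom_id (A := PQ.ofLC K) k)).trans (fn_smulYo γ k _))).trans ?_
  exact act_inv_hom _ (ρ_ c) _

/-- maps of cells -/
def cm (A : c ⟶ c') (f : K' ⟶ K) : Cel c' K' ⟶ Cel c K := repMap A ⊗ₘ (jC J).map f

theorem fn_cm (A : c ⟶ c') (f : K' ⟶ K) (k : OnePoint K') :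
    fn (cm A f) (gp c' k) = (Cel c K).act A (gp c (app f k)) := by
  rw [gp, gp, fn_act, cm, tensorHom_tm, fn_repMap_pr, fn_jC_map, Category.comp_id, tm_pr,
    ← act_comp, ← act_comp, rightUnitor_naturality]

@[simp] theorem cm_id : cm (𝟙 c) (𝟙 K) = 𝟙 _ := by
  rw [cm, repMap_id, CategoryTheory.Functor.map_id, id_tensorHom_id]

@[reassoc]
theorem cm_comp (A : c ⟶ c') (A' : c' ⟶ c'') (f : K' ⟶ K) (f' : K'' ⟶ K') :
    cm A' f' ≫ cm A f = cm (A ≫ A') (f' ≫ f) := by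
  rw [cm, cm, cm, tensorHom_comp_tensorHom, repMap_comp, Functor.map_comp]

theorem cm_left (f : K' ⟶ K) : cm (𝟙 c) f = rep c ◁ (jC J).map f := by
  rw [cm, repMap_id, id_tensorHom]

theorem cm_right (A : c ⟶ c') : cm A (𝟙 K) = repMap A ▷ (jC J).obj K := by
  rw [cm, CategoryTheory.Functor.map_id, tensorHom_id]

/-- isomorphisms of cells -/
@[simps] def cmIso (A : c ≅ c') (f : K' ≅ K) : Cel c' K' ≅ Cel c K where
  hom := cm A.hom f.hom
  inv := cm A.inv f.inv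
  hom_inv_id := by rw [cm_comp, A.inv_hom_id, f.hom_inv_id, cm_id]
  inv_hom_id := by rw [cm_comp, A.hom_inv_id, f.inv_hom_id, cm_id]

instance (A : c ⟶ c') [IsIso A] (f : K' ⟶ K) [IsIso f] : IsIso (cm A f) :=
  (cmIso (asIso A) (asIso f)).isIso_hom

/-- the product of two cells -/
def cT (c : J) (K : LC) (c' : J) (K' : LC) : Cel (c ⊗ c') (K ⊗ K') ≅ Cel c K ⊗ Cel c' K' where
  hom := ((repTensor c c').inv ⊗ₘ δ (jC J) K K') ≫ tensorδ _ _ _ _
  inv := tensorμ _ _ _ _ ≫ ((repTensor c c').hom ⊗ₘ μ (jC J) K K')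
  hom_inv_id := by
    rw [Category.assoc, tensorδ_tensorμ_assoc, tensorHom_comp_tensorHom, Iso.inv_hom_id,
      Functor.Monoidal.δ_μ, id_tensorHom_id]
  inv_hom_id := by
    rw [Category.assoc, tensorHom_comp_tensorHom_assoc, Iso.hom_inv_id, Functor.Monoidal.μ_δ,
      id_tensorHom_id, Category.id_comp, tensorμ_tensorδ]

theorem fn_cT_inv (k : OnePoint K) (k' : OnePoint K') :
    fn (cT c K c' K').inv (tm (gp c k) (gp c' k')) = gp (c ⊗ c') (K := K ⊗ K') (smash k k') := by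
  rw [gp, gp, gp, ← act_tm, fn_act]
  change (Cel _ _).act _ (fn ((repTensor c c').hom ⊗ₘ μ (jC J) K K') (fn (tensorμ _ _ _ _) _)) = _
  rw [fn_tensorμ_gen, fn_act, tensorHom_tm, fn_repTensor_hom, id_tensorHom_id, fn_μ_jC,
    smp_id_id, ← Category.id_comp (λ_ (𝟙_ J)).inv, ← jC_act, ← act_tm_right, ← act_comp,
    ← act_comp]
  congr 1
  simp only [tensorδ, braiding_inv_tensorUnit_left, tensorHom_def]
  monoidal

theorem fn_cT (k : OnePoint K) (k' : OnePoint K') :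
    fn (cT c K c' K').hom (gp (c ⊗ c') (K := K ⊗ K') (smash k k')) = tm (gp c k) (gp c' k') := by
  rw [← fn_cT_inv, ← fn_comp, Iso.inv_hom_id, fn_id]

@[reassoc]
theorem cT_nat (A : c ⟶ c') (f : K' ⟶ K) (B : d ⟶ d') (g : L' ⟶ L) :
    (cT c' K' d' L').hom ≫ (cm A f ⊗ₘ cm B g) = cm (A ⊗ₘ B) (f ⊗ₘ g) ≫ (cT c K d L).hom := by
  refine cel_ext₂ fun k l => ?_
  rw [fn_comp, fn_comp, fn_cT, tensorHom_tm, fn_cm, fn_cm, fn_cm, LC.app_tensorHom_smash, fn_act,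
    fn_cT, act_tm]

@[reassoc]
theorem cT_comm : (cT c K c' K').hom ≫ (β_ _ _).hom =
    cm (β_ c' c).hom (β_ K K').hom ≫ (cT c' K' c K).hom := by
  refine cel_ext₂ fun k l => ?_
  rw [fn_comp, fn_comp, fn_cT, braiding_tm, fn_cm, LC.app_braiding_smash, fn_act, fn_cT]

@[reassoc]
theorem cT_assoc : (cT (c ⊗ c') (K ⊗ K') c'' K'').hom ≫ (cT c K c' K').hom ▷ _ ≫ (α_ _ _ _).hom =
    cm (α_ c c' c'').inv (α_ K K' K'').hom ≫ (cT c K (c' ⊗ c'') (K' ⊗ K'')).hom ≫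
      _ ◁ (cT c' K' c'' K'').hom := by
  refine cel_ext₃ fun k l m => ?_
  rw [fn_comp, fn_comp, fn_comp, fn_comp, fn_cT, whiskerRight_tm, fn_cT, associator_tm, fn_cm,
    LC.app_associator_smash, fn_act, fn_act, fn_cT, whiskerLeft_tm, fn_cT]

variable (J) in
/-- the unit as a cell -/
def cU : Cel (𝟙_ J) (𝟙_ LC) ≅ 𝟙_ (EF J) :=
  λ_ ((jC J).obj (𝟙_ LC)) ≪≫ (Functor.Monoidal.εIso (jC J)).symm

theorem fn_cU (u : Unit) :
    fn (cU J).hom (gp (𝟙_ J) (K := 𝟙_ LC) (u : OnePoint Unit)) = pr (𝟙 _) := by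
  have h : fn (η (jC J)) (jm (K := 𝟙_ LC) (u : OnePoint Unit) (𝟙 (𝟙_ J))) = pr (𝟙 _) := by
    rw [← fn_ε_jC, ← fn_comp, Functor.Monoidal.ε_η]
    rfl
  rw [gp, fn_act]
  change (𝟙_ (EF J)).act _ (fn (η (jC J)) (fn (λ_ ((jC J).obj (𝟙_ LC))).hom _)) = _
  rw [leftUnitor_tm, fn_act, h]
  erw [unpr_pr]
  refine (congrArg _ (rep_act _ _)).trans ((rep_act _ _).trans ?_)
  rw [Category.id_comp, unitors_inv_equal, id_whiskerRight, Category.comp_id, Iso.inv_hom_id]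

/-- the cylinder on a cell -/
def cI (c : J) (K : LC) : Cel c (K ⊗ II) ≅ Cel c K ⊗ (jC J).obj II :=
  whiskerLeftIso _ (Functor.Monoidal.μIso (jC J) K II).symm ≪≫ (α_ _ _ _).symm

end general

variable {b b' c c' : O} {K K' : LC} {X : EF O}

/-- the structure map `rep b ⊗ S^b ⟶ 𝟙` -/
def lam0 (b : O) : Cel b (V b) ⟶ 𝟙_ (EF O) :=
  lamOf (K := V b) spt O.spt_infty fun _ _ h => O.plot_spt h

theorem fn_lam0 (w : OnePoint (V b)) : fn (lam0 b) (gp b w) = pr (spt w) := by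
  rw [gp, fn_act, lam0, lamOf_tm, smp_id_right, Category.comp_id]
  refine (rep_act _ _).trans ?_
  rw [Category.assoc, Iso.inv_hom_id, Category.comp_id]

theorem lam0_dinat (A : b ⟶ b') : cm A (𝟙 _) ≫ lam0 b = cm (𝟙 _) (VF.map A) ≫ lam0 b' := by
  refine cel_ext fun w => ?_
  rw [fn_comp, fn_comp, fn_cm, fn_cm, fn_act, act_id, fn_lam0, fn_lam0, LC.app_id, app_VF_map,
    ← O.spt_comp]
  exact rep_act _ _

theorem lamC_eq_lam0 : lamC O = cm (𝟙 O.pt) O.lineIso.hom ≫ lam0 O.pt := by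
  refine cel_ext (c := O.pt) fun r => ?_
  rw [fn_comp, fn_cm, act_id, fn_lam0, gp, fn_act]
  refine (congrArg _ (lamC_tm _ _ _)).trans ((rep_act _ _).trans ?_)
  rw [smp_id_right, Category.assoc, Iso.inv_hom_id, Category.comp_id]
  exact congrArg pr ((Category.comp_id _).trans (O.sphIdx_pt r))

/-- the stabilisation of a cell -/
def stb (b c : O) (K : LC) : Cel (b ⊗ c) (V b ⊗ K) ⟶ Cel c K :=
  (cT b (V b) c K).hom ≫ lam0 b ▷ Cel c K ≫ (λ_ _).hom

theorem fn_stb (w : OnePoint (V b)) (k : OnePoint K) :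
    fn (stb b c K) (gp (b ⊗ c) (K := V b ⊗ K) (smash w k)) =
      (Cel c K).act ((λ_ c).inv ≫ spt w ▷ c) (gp c k) := by
  rw [stb, fn_comp, fn_comp, fn_cT, whiskerRight_tm, fn_lam0, leftUnitor_tm]
  erw [unpr_pr]

@[reassoc]
theorem cm_stb (A : c ⟶ c') (f : K' ⟶ K) :
    cm (b ◁ A) (V b ◁ f) ≫ stb b c K = stb b c' K' ≫ cm A f := by
  rw [stb, stb, ← id_tensorHom, ← id_tensorHom, ← cT_nat_assoc, cm_id, id_tensorHom,
    whisker_exchange_assoc, leftUnitor_naturality, Category.assoc, Category.assoc]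

@[reassoc]
theorem cT_stb : (cT (b ⊗ c) (V b ⊗ K) c' K').hom ≫ stb b c K ▷ Cel c' K' =
    cm (α_ b c c').inv (α_ (V b) K K').hom ≫ stb b (c ⊗ c') (K ⊗ K') ≫ (cT c K c' K').hom := by
  rw [stb, stb, Category.assoc, Category.assoc, ← leftUnitor_naturality, ← whisker_exchange_assoc,
    ← cT_assoc_assoc, comp_whiskerRight, comp_whiskerRight, ← associator_naturality_left_assoc,
    leftUnitor_tensor_hom (Cel c K), Iso.hom_inv_id_assoc]

theorem stb_swap : stb b' (b ⊗ c) (V b ⊗ K) ≫ stb b c K =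
    cm ((α_ b b' c).inv ≫ (β_ b b').hom ▷ c ≫ (α_ b' b c).hom)
      ((α_ (V b') (V b) K).inv ≫ (β_ (V b') (V b)).hom ▷ K ≫ (α_ (V b) (V b') K).hom) ≫
        stb b (b' ⊗ c) (V b' ⊗ K) ≫ stb b' c K := by
  refine cel_ext₃' fun w' w k => ?_
  rw [fn_comp, fn_comp, fn_comp, fn_stb, fn_act, fn_stb, fn_cm, LC.app_comp, LC.app_comp,
    LC.app_associator_inv_smash, LC.app_whiskerRight_smash, LC.app_braiding_smash,
    LC.app_associator_smash, fn_act, fn_act, fn_stb, fn_act, fn_stb, ← act_comp, ← act_comp,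
    ← act_comp]
  congr 1
  generalize spt w = x
  generalize spt w' = y
  have h1 : x ▷ (b' ⊗ c) ≫ (α_ b b' c).inv ≫ (β_ b b').hom ▷ c ≫ (α_ b' b c).hom =
      (α_ _ b' c).inv ≫ (β_ _ b').hom ▷ c ≫ (α_ b' _ c).hom ≫ b' ◁ x ▷ c := by
    rw [associator_inv_naturality_left_assoc, ← comp_whiskerRight_assoc,
      BraidedCategory.braiding_naturality_left, comp_whiskerRight_assoc,
      associator_naturality_middle]
  simp only [Category.assoc]
  rw [h1, leftUnitor_inv_naturality_assoc (x ▷ c), whisker_exchange, braiding_tensorUnit_left]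
  simp

end Vale.Agent.P257.P
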