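import Vale.Agent.P257.P.Adj
import Vale.Agent.P251.Q.GoodInst
import Vale.Agent.P251.Q.Additive

/-!
# P257, part P: the class of a map from a cell to `MU`

`cls o y = (flat y)^* τ`, `trU`, `mulU`, `sus` : the operations on the classes of the total spaces
`K ⊗ V c` which correspond to `cm`, the product and `stb`.
-/

open CategoryTheory MonoidalCategory Limits MonObj
open scoped Matrix

universe v

set_option linter.unusedSectionVars false

noncomputable section

namespace Vale.Agent.P257.P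

open Vale.Agent.P251.H.StabInput (MHtpy)
open Vale.Agent.P251.G Vale.Agent.P251.Q Vale.Agent.P251.Q.MultTheory
open Vale.Agent.P251.G.LC (RR II app smash Homotopic)
open Vale.Agent.P257.D Vale.Agent.P257.E
open Vale.Agent.P257.D.O (V vec vfst vsnd spt vsm)

variable {b b' c c' c'' d d' : O} {K K' K'' L L' : LC}

theorem app_shT' (k : OnePoint K) (k' : OnePoint K') (t : OnePoint (c.El → ℝ))
    (t' : OnePoint (c'.El → ℝ)) : app (shT c K c' K').hom (smash (smash k k') (vsm t t')) =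
      smash (smash k t) (smash k' t') := by
  induction t using OnePoint.rec with
  | infty =>
    simp only [O.vsm_infty_left, LC.smash_infty_left, LC.smash_infty_right]
    exact LC.app_infty _
  | coe t =>
    induction t' using OnePoint.rec with
    | infty =>
      simp only [O.vsm_infty_right, LC.smash_infty_right]
      exact LC.app_infty _
    | coe t' => exact app_shT k k' t t'

@[reassoc]
theorem shT_nat (A : c' ⟶ c) (f : K' ⟶ K) (B : d' ⟶ d) (g : L' ⟶ L) :
    ((f ⊗ₘ g) ⊗ₘ VF.map (A ⊗ₘ B)) ≫ (shT c K d L).hom =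
      (shT c' K' d' L').hom ≫ ((f ⊗ₘ VF.map A) ⊗ₘ (g ⊗ₘ VF.map B)) :=
  shT_ext fun k l t s => by
    rw [LC.app_comp, LC.app_comp, app_shT, LC.app_tensorHom_smash, LC.app_tensorHom_smash,
      LC.app_tensorHom_smash, LC.app_tensorHom_smash, LC.app_tensorHom_smash, app_VF_map,
      ← O.vsm_coe, O.act_tensor_vsm, app_shT']
    rfl

@[reassoc]
theorem shT_comm : (shT c K c' K').hom ≫ (β_ _ _).hom =
    ((β_ K K').hom ⊗ₘ VF.map (β_ c' c).inv) ≫ (shT c' K' c K).hom :=
  shT_ext fun k l t s => by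
    have h : app (VF.map (β_ c' c).inv) (vec t s : OnePoint _) = (vec s t : OnePoint _) :=
      congrArg OnePoint.some (O.brd_ap t s)
    rw [LC.app_comp, LC.app_comp, app_shT, LC.app_tensorHom_smash, LC.app_braiding_smash,
      LC.app_braiding_smash, h, app_shT]

@[reassoc]
theorem shT_assoc : (shT (c ⊗ c') (K ⊗ K') c'' K'').hom ≫ (shT c K c' K').hom ▷ _ ≫
    (α_ _ _ _).hom = ((α_ K K' K'').hom ⊗ₘ VF.map (α_ c c' c'').hom) ≫
      (shT c K (c' ⊗ c'') (K' ⊗ K'')).hom ≫ _ ◁ (shT c' K' c'' K'').hom :=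
  shT_ext fun k m t r => by
    obtain ⟨k, l⟩ := k
    obtain ⟨t, s, rfl⟩ := O.vec_surj t
    have h : app (VF.map (α_ c c' c'').hom) (vec (vec t s) r : OnePoint _) =
        (vec t (vec s r) : OnePoint _) := congrArg OnePoint.some (O.asc_ap t s r)
    rw [LC.app_comp (_ ⊗ₘ _), LC.app_tensorHom_smash, h]
    rfl

variable {E : MultTheory.{v}}

instance good_V (c : O) : E.Good (V c) :=
  Good.of_homeo E (X := LC.Sph (Fintype.card c.El))
    (Homeomorph.piCongrLeft (Y := fun _ => ℝ) (Fintype.equivFin c.El).symm)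

/-- transport of classes -/
def trU (A : c ≅ c') (f : K' ⟶ K) : E.U (K ⊗ V c) →+ E.U (K' ⊗ V c') :=
  E.map (f ⊗ₘ VF.map A.inv)

/-- product of classes -/
def mulU (u : E.U (K ⊗ V c)) : E.U (K' ⊗ V c') →+ E.U ((K ⊗ K') ⊗ V (c ⊗ c')) :=
  (E.map (shT c K c' K').hom).comp (E.cross u)

theorem mulU_apply (u : E.U (K ⊗ V c)) (u' : E.U (K' ⊗ V c')) :
    mulU u u' = E.map (shT c K c' K').hom (E.cross u u') := rfl

variable [E.Good K] [E.Good K'] [E.Good K''] [E.Good L] [E.Good L']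

theorem trU_trU (A : c ≅ c') (A' : c' ≅ c'') (f : K' ⟶ K) (f' : K'' ⟶ K') (u : E.U (K ⊗ V c)) :
    trU A' f' (trU A f u) = trU (A ≪≫ A') (f' ≫ f) u := by
  rw [trU, trU, trU, ← map_comp, tensorHom_comp_tensorHom, ← Functor.map_comp]
  rfl

@[simp] theorem trU_id (u : E.U (K ⊗ V c)) : trU (Iso.refl c) (𝟙 K) u = u := by
  rw [trU, Iso.refl_inv, CategoryTheory.Functor.map_id, id_tensorHom_id, MultTheory.map_id]

theorem trU_refl (f : K' ⟶ K) (u : E.U (K ⊗ V c)) : trU (Iso.refl c) f u = E.map (f ▷ V c) u := by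
  rw [trU, Iso.refl_inv, CategoryTheory.Functor.map_id, tensorHom_id]

theorem trU_bijective (A : c ≅ c') (f : K' ≅ K) :
    Function.Bijective (trU (E := E) A f.hom) :=
  map_iso_bijective (f ⊗ᵢ VF.mapIso A.symm)

theorem trU_deg (A : c ≅ c') (f : K' ⟶ K) {k : ℤ} {u : E.U (K ⊗ V c)} (h : u ∈ E.deg _ k) :
    trU A f u ∈ E.deg _ k := map_deg _ h

theorem trU_smul (A : c ≅ c') (f : K' ⟶ K) (a : E.A) (u : E.U (K ⊗ V c)) :
    trU A f (a • u) = a • trU A f u := MultTheory.map_smul _ _ _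

theorem mulU_nat (A : c ≅ c') (f : K' ⟶ K) (B : d ≅ d') (g : L' ⟶ L) (u : E.U (K ⊗ V c))
    (w : E.U (L ⊗ V d)) : mulU (trU A f u) (trU B g w) = trU (A ⊗ᵢ B) (f ⊗ₘ g) (mulU u w) := by
  rw [mulU_apply, mulU_apply, trU, trU, trU, cross_map, ← map_comp, ← map_comp, ← shT_nat]
  rfl

theorem mulU_comm (u : E.U (K ⊗ V c)) (u' : E.U (K' ⊗ V c')) :
    mulU u u' = trU (β_ c' c) (β_ K K').hom (mulU u' u) := by
  rw [mulU_apply, mulU_apply, trU, ← map_comp, ← shT_comm, map_comp, cross_comm]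

theorem mulU_assoc (u : E.U (K ⊗ V c)) (u' : E.U (K' ⊗ V c')) (u'' : E.U (K'' ⊗ V c'')) :
    mulU (mulU u u') u'' = trU (α_ c c' c'').symm (α_ K K' K'').hom (mulU u (mulU u' u'')) := by
  rw [mulU_apply, mulU_apply, mulU_apply, mulU_apply, trU, cross_map_left, cross_map_right,
    ← cross_assoc, ← map_comp, ← map_comp, ← map_comp, ← map_comp, Category.assoc, shT_assoc,
    Category.assoc]
  rfl

theorem mulU_deg {k l : ℤ} {u : E.U (K ⊗ V c)} {u' : E.U (K' ⊗ V c')} (h : u ∈ E.deg _ k)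
    (h' : u' ∈ E.deg _ l) : mulU u u' ∈ E.deg _ (k + l) := map_deg _ (cross_deg h h')

theorem mulU_smul (a a' : E.A) (u : E.U (K ⊗ V c)) (u' : E.U (K' ⊗ V c')) :
    mulU (a • u) (a' • u') = (a * a') • mulU u u' := by
  rw [mulU_apply, mulU_apply, cross_smul_left, cross_smul_right, smul_smul, MultTheory.map_smul]

variable (o : Orientation E)

theorem map_thM_tau {n n' : ℕ} {I J : Type} [Fintype I] [Fintype J] [DecidableEq I]
    [DecidableEq J] (h : n = n') (u : Matrix J I ℂ) (hu : uᴴ * u = 1) :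
    E.map (thM h u hu) (o.tau n' J) = o.tau n I := by
  subst h
  rw [thM_rfl, tau_map]

/-- the Thom class of `N c` -/
abbrev tauN (c : O) : E.U (N c) := o.tau (Fintype.card c.El) (c.El ⊕ c.El)

/-- the class of a map from a cell to `MU` -/
def cls (y : Cel c K ⟶ MUo) : E.U (K ⊗ V c) := E.map (flat y) (tauN o c)

/-- the suspension class of `ℝ^b × ℝ^b` -/
def linV (b : O) : E.U (V b ⊗ V b) := E.map (cpx b).hom (o.lin b.El)

/-- suspension -/
def sus (b : O) : E.U (K ⊗ V c) →+ E.U ((V b ⊗ K) ⊗ V (b ⊗ c)) := mulU (linV o b)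

theorem lin_deg (I : Type) [Fintype I] [DecidableEq I] :
    o.lin I ∈ E.deg _ (Fintype.card I) := map_deg _ (o.tau_deg _ _)

theorem cls_deg (y : Cel c K ⟶ MUo) : cls o y ∈ E.deg _ (Fintype.card c.El) :=
  map_deg _ (o.tau_deg _ _)

theorem cls_zero : cls o (0 : Cel c K ⟶ MUo) = 0 := by rw [cls, flat_zero, map_zero_mor]

theorem cls_htpy {y y' : Cel c K ⟶ MUo} (h : MHtpy y y') : cls o y = cls o y' :=
  map_homotopic (homotopic_flat h) _

theorem cls_cm (A : c ≅ c') (f : K' ⟶ K) (y : Cel c K ⟶ MUo) :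
    cls o (cm A.hom f ≫ y) = trU A f (cls o y) := by
  rw [cls, flat_cm, map_comp, map_comp, thA, map_thM_tau]
  rfl

theorem cls_cm_left (f : K' ⟶ K) (y : Cel c K ⟶ MUo) :
    cls o (cm (𝟙 c) f ≫ y) = E.map (f ▷ V c) (cls o y) :=
  (cls_cm o (Iso.refl c) f y).trans (trU_refl _ _)

theorem map_sumN_tau (c c' : O) :
    E.map (sumN c c') (tauN o (c ⊗ c')) = E.cross (tauN o c) (tauN o c') := by
  refine (map_comp _ _ _).trans ?_
  exact (congrArg _ (tau_map o _ _ _)).trans (tau_sum' o _)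

theorem cls_mul (y : Cel c K ⟶ MUo) (y' : Cel c' K' ⟶ MUo) :
    cls o ((cT c K c' K').hom ≫ (y ⊗ₘ y') ≫ μ[MUo]) = mulU (cls o y) (cls o y') := by
  rw [cls, flat_mul, map_comp, map_comp, map_sumN_tau, ← cross_map]
  rfl

theorem map_inN_tau (b : O) : E.map (inN b) (tauN o b) = o.lin b.El := by
  rw [inN, map_comp, tau_map, map_incl']

theorem cls_lam0 (b : O) : cls o (lam0 b ≫ η[MUo]) = linV o b := by
  rw [cls, flat_lam0, map_comp, map_inN_tau, linV]

theorem cls_stb (y : Cel c K ⟶ MUo) : cls o (stb b c K ≫ y) = sus o b (cls o y) := by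
  rw [stb_comp, cls_mul, cls_lam0, sus]

theorem lin_bijective_left (I : Type) [Fintype I] [DecidableEq I] (X : LC) [E.Good X] :
    Function.Bijective (E.cross (Y := X) (o.lin I)) := by
  rw [show (E.cross (Y := X) (o.lin I) : _ → _) = E.map (β_ _ X).hom ∘ fun x => E.cross x (o.lin I)
    from funext fun x => (cross_comm _ x).symm]
  exact (map_iso_bijective (β_ _ X)).comp (lin_bijective o I X)

theorem sus_apply (u : E.U (K ⊗ V c)) : sus o b u =
    E.map (shT b (V b) c K ≪≫ whiskerRightIso (cpx b) _).hom (E.cross (o.lin b.El) u) := by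
  rw [sus, mulU_apply, linV, cross_map_left, ← map_comp]
  rfl

theorem sus_bijective : Function.Bijective (sus (K := K) (c := c) o b) := by
  rw [show (sus (K := K) (c := c) o b : _ → _) = _ ∘ _ from funext (sus_apply o)]
  exact (map_iso_bijective _).comp (lin_bijective_left o _ _)

theorem sus_deg {k : ℤ} {u : E.U (K ⊗ V c)} (h : u ∈ E.deg _ k) :
    sus o b u ∈ E.deg _ (k + Fintype.card b.El) :=
  add_comm k _ ▸ mulU_deg (map_deg _ (lin_deg o _)) h

theorem deg_of_sus {k : ℤ} {u : E.U (K ⊗ V c)}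
    (h : sus o b u ∈ E.deg _ (k + Fintype.card b.El)) : u ∈ E.deg _ k :=
  mem_deg_of_injective (fun _ _ => sus_deg o) (sus_bijective o).1 h

theorem sus_smul (a : E.A) (u : E.U (K ⊗ V c)) : sus o b (a • u) = a • sus o b u := by
  rw [sus_apply, sus_apply, cross_smul_right, MultTheory.map_smul]

theorem trU_sus (A : c ≅ c') (f : K' ⟶ K) (u : E.U (K ⊗ V c)) :
    trU (whiskerLeftIso b A) (V b ◁ f) (sus o b u) = sus o b (trU A f u) := by
  have h := mulU_nat (Iso.refl b) (𝟙 (V b)) A f (linV o b) u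
  rw [trU_id, id_tensorHom] at h
  exact h.symm

theorem mulU_sus (u : E.U (K ⊗ V c)) (u' : E.U (K' ⊗ V c')) : mulU (sus o b u) u' =
    trU (α_ b c c').symm (α_ (V b) K K').hom (sus o b (mulU u u')) := mulU_assoc _ _ _

theorem sus_swap (u : E.U (K ⊗ V c)) : sus o b' (sus o b u) =
    trU ((α_ b b' c).symm ≪≫ whiskerRightIso (β_ b b') c ≪≫ α_ b' b c)
      ((α_ (V b') (V b) K).inv ≫ (β_ (V b') (V b)).hom ▷ K ≫ (α_ (V b) (V b') K).hom)
      (sus o b (sus o b' u)) := by
  have h1 := mulU_assoc (linV o b') (linV o b) u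
  have h2 := mulU_nat (β_ b b') (β_ (V b') (V b)).hom (Iso.refl c) (𝟙 K)
    (mulU (linV o b) (linV o b')) u
  rw [trU_id, ← mulU_comm, h1, mulU_assoc, trU_trU, tensorHom_id] at h2
  have h3 := congrArg (trU (α_ b' b c) (α_ (V b') (V b) K).inv) h2
  rw [trU_trU, trU_trU, Iso.symm_self_id, Iso.inv_hom_id, trU_id, Iso.trans_assoc] at h3
  exact h3

end Vale.Agent.P257.P
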