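import Vale.Agent.P257.P.Pre
import Vale.Agent.P257.L.MTow

/-!
# P257, part P: the coefficients of `MU`

* `coef` : the homotopy groups of `MU` in the stable category;
* `coef_cl`, `coef_one`, `isV_zero`, `eq_zero_of_neg`, `thom`.
-/

open CategoryTheory MonoidalCategory Limits Functor.LaxMonoidal Functor.OplaxMonoidal
open scoped Matrix

universe v w u

set_option linter.unusedSectionVars false

noncomputable section

namespace Vale.Agent.P257.P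

open Vale.Agent.P251.H.StabInput (S)
open Vale.Agent.P251.G Vale.Agent.P251.Q Vale.Agent.P251.Q.MultTheory
open Vale.Agent.P251.G.LC (RR)
open Vale.Agent.P251.I (FCP FCat)
open Vale.Agent.P251.M (ThF TO)
open Vale.Agent.P257.D Vale.Agent.P257.E
open Vale.Agent.P257.D.EF (rep jC)
open Vale.Agent.P257.D.O (V)
open Vale.Agent.P257.Det (RepUniq)
open Vale.Agent.P257.C (Cells)
open Vale.Agent.P257.L (RegSeq Coef CMod Thom exists_bezout not_dvd_mul)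

attribute [-instance] instNonUnitalCommRing instCommRing

variable {C : Type u} [Category.{w} C] [Preadditive C] [MonoidalCategory C] [SymmetricCategory C]
  [MonoidalPreadditive C] {st : EF O ⥤ C} [st.Braided] {n : ℕ} {E : ThomTheory.{v}}
  (H : ULoc n st) (hU : RepUniq E.o) {cc : Cells C ℤ} (e₁ : cc.obj 1 ≅ st.obj (S (EF O)))

section odd

include H e₁

variable (E) in
theorem exists_odd (d : ℤ) : ∃ (c : O) (K : LC) (_ : E.Good K)
    (_ : st.obj (Cel c K) ≅ cc.obj (2 * d + 1)) (s : E.U RR →+ E.U (K ⊗ V c)),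
      Function.Bijective s ∧
        ∀ k, ∀ y ∈ E.deg RR k, s y ∈ E.deg _ (k + (Fintype.card c.El + d)) := by
  obtain ⟨π⟩ := nonempty_pre E.o H e₁ d
  let i : RR ⊗ V (𝟙_ O) ≅ RR := whiskerLeftIso _ O.unitIsoV.symm ≪≫ ρ_ _
  refine ⟨π.c ⊗ 𝟙_ O, π.K ⊗ RR, inferInstance, st.mapIso (cT _ _ _ _) ≪≫
    (Functor.Monoidal.μIso st _ _).symm ≪≫ (π.e ⊗ᵢ (st.mapIso (λ_ _) ≪≫ e₁.symm)) ≪≫ cc.add _ _,
    (mulU π.g).comp (E.map i.hom), ((map_iso_bijective _).comp (π.gen _)).comp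
      (map_iso_bijective i), fun k y hy => ?_⟩
  rw [← card_tensor, add_comm k]
  exact mulU_deg π.deg (map_deg _ hy)

include hU

theorem odd_tf {p : ℕ} (h : ∀ y : E.U RR, p • y = 0 → y = 0) (d : ℤ)
    (x : cc.obj (2 * d + 1) ⟶ st.obj MUo) (hx : (p : ℤ) • x = 0) : x = 0 := by
  obtain ⟨c, K, _, e, s, h1, -⟩ := exists_odd E H e₁ d
  obtain ⟨k, u, hu⟩ := H.exists_rel (o := E.o) (e.hom ≫ x)
  obtain ⟨y, rfl⟩ := h1.2 u
  obtain ⟨j, hj⟩ := (hu.nsmul H p).pow_smul_eq_zero H (by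
    rw [smul_comm, ← Preadditive.comp_nsmul, ← natCast_zsmul x, hx, comp_zero, smul_zero])
  have h2 : n ^ j • y = 0 := h _ (h1.1 (by rw [map_nsmul, map_nsmul, smul_comm, hj, map_zero]))
  have h3 := (hu.nsmul H (n ^ j)).eq_of_eq H hU ((Rel.zero H).of_eq rfl (by
    rw [← map_nsmul, h2, map_zero]))
  rw [← cancel_epi e.hom, comp_zero]
  exact H.pow_cancel (k := k) (H.pow_cancel (k := j) (by rw [h3, smul_zero, smul_zero]))

theorem odd_div {p : ℕ} (h : ∀ y : E.U RR, ∃ z, y = p • z) (d : ℤ)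
    (x : cc.obj (2 * d + 1) ⟶ st.obj MUo) : ∃ y, x = (p : ℤ) • y := by
  obtain ⟨c, K, _, e, s, h1, -⟩ := exists_odd E H e₁ d
  obtain ⟨k, u, hu⟩ := H.exists_rel (o := E.o) (e.hom ≫ x)
  obtain ⟨y, rfl⟩ := h1.2 u
  obtain ⟨z, rfl⟩ := h y
  obtain ⟨a, ha⟩ := H.exists_of_deg (proj_mem (E := E.toMultTheory) (Fintype.card c.El) (s z))
  obtain ⟨a, rfl⟩ := H.pow_div k a
  have h3 := hu.eq_of_eq H hU ((ha.nsmul H p).of_eq rfl (by
    rw [← map_nsmul, ← map_nsmul, proj_of_mem hu.deg]))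
  rw [smul_comm] at h3
  exact ⟨e.inv ≫ a, by
    rw [natCast_zsmul, ← Preadditive.comp_nsmul, ← H.pow_cancel h3, e.inv_hom_id_assoc]⟩

/-- The negative homotopy groups vanish. -/
theorem eq_zero_of_neg {k : ℤ} (hk : k < 0) (x : cc.obj k ⟶ st.obj MUo) : x = 0 := by
  obtain ⟨d, rfl | rfl⟩ := Int.even_or_odd' k
  · obtain ⟨π⟩ := nonempty_pre E.o H e₁ d
    obtain ⟨j, a, ha⟩ := π.exists_pow H x
    obtain rfl : a = 0 := E.deg_unit_pos _ (by omega) a ha.deg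
    exact H.pow_cancel ((ha.eq H hU (Pre.R.zero H π)).trans (smul_zero _).symm)
  · obtain ⟨c, K, _, e, s, h1, h2⟩ := exists_odd E H e₁ d
    obtain ⟨j, u, hu⟩ := H.exists_rel (o := E.o) (e.hom ≫ x)
    obtain ⟨y, rfl⟩ := h1.2 u
    obtain rfl : y = 0 := E.deg_RR_pos (-d) (by omega) y (mem_deg_of_injective h2 h1.1 (by
      rw [neg_add_cancel_comm_assoc]
      exact hu.deg))
    rw [← cancel_epi e.hom, comp_zero]
    exact H.pow_cancel ((hu.eq_of_eq H hU ((Rel.zero H).of_eq rfl (map_zero s).symm)).trans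
      (smul_zero _).symm)

end odd

variable (E st) in
/-- `x` is a class of degree `2 d` with value `a` -/
def Cl (d : ℤ) {P : C} (x : P ⟶ st.obj MUo) (a : E.A) : Prop :=
  ∃ π : Pre E.toMultTheory st d P, π.R E.o x a

variable {d : ℤ} {P : C}

/-- the class of a map given on a cell -/
theorem cl_of_flat (c c' : O) (K : LC) (e : V c' ⊗ V c' ≅ K ⊗ V c) (φ : st.obj (Cel c K) ≅ P)
    (x : P ⟶ st.obj MUo) (y : Cel c K ⟶ MUo) (a : E.A)
    (hd : Fintype.card c.El + d = Fintype.card c'.El) (hx : φ.hom ≫ x = st.map y)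
    (ha : E.map (e.hom ≫ flat y) (tauN E.o c) = a • linV E.o c') (H : ULoc n st) :
    Cl st E d x a := by
  have : E.Good (K ⊗ V c) := Good.of_iso _ e
  have : E.Good (V c ⊗ K) := Good.of_iso _ (β_ K (V c))
  have := H.isIso_stb c c K
  refine ⟨⟨c ⊗ c, V c ⊗ K, mulU (linV E.o c) (E.map e.symm.hom (linV E.o c')),
    ((gen_linV _ c).cross ((gen_linV _ c').map _)).map _, ?_, asIso (st.map (stb c c K)) ≪≫ φ⟩,
    (Rel.base (stb c c K ≫ y)).of_eq (by simp [hx]) ?_⟩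
  · rw [← card_tensor, Nat.cast_add, add_assoc, hd]
    exact map_deg _ (cross_deg (linV_deg _ c) (map_deg _ (linV_deg _ c')))
  · rw [map_comp] at ha
    rw [cls, flat_stb, map_comp, map_comp, map_sumN_tau, ← cross_map, map_comp, map_inN_tau,
      ← map_inv_hom e (E.map (flat y) _), ha, MultTheory.map_smul, cross_smul_right,
      MultTheory.map_smul]
    rfl

variable (hZ : ∀ m : ℤ, m • E.one = 0 → m = 0) {p : ℕ} (hp : p.Prime) (hn : ¬ p ∣ n)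

include H hU e₁ hZ hp hn in
theorem Cl.uniq {x : P ⟶ st.obj MUo} {a a' : E.A} (h : Cl st E d x a) (h' : Cl st E d x a') :
    ∃ m m' : ℤ, ¬ (p : ℤ) ∣ m ∧ ¬ (p : ℤ) ∣ m' ∧ m • a = m' • a' := by
  obtain ⟨π, h⟩ := h
  obtain ⟨π', h'⟩ := h'
  obtain ⟨σ⟩ := nonempty_pre E.o H e₁ (-d)
  obtain ⟨k, l, m, h1, h2⟩ := Pre.exists_ratio H hU hZ π π' σ
  obtain ⟨j, hj⟩ := h2 x a a' h h'
  have h3 : ∀ i, ¬ (p : ℤ) ∣ (n : ℤ) ^ i := fun i k =>
    hn (Int.natCast_dvd_natCast.1 (Int.Prime.dvd_pow' hp k))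
  refine ⟨n ^ j * m, n ^ j * n ^ k, not_dvd_mul hp (h3 j) fun e => h3 l (e.trans h1),
    not_dvd_mul hp (h3 j) (h3 k), ?_⟩
  rw [mul_smul, mul_smul, ← Nat.cast_pow, ← Nat.cast_pow, natCast_zsmul, natCast_zsmul,
    natCast_zsmul, hj]

variable [MonObj (st.obj MUo)]
  (hη : MonObj.one (X := st.obj MUo) = ε st ≫ st.map (MonObj.one (X := MUo)))
  (hμ : MonObj.mul (X := st.obj MUo) = μ st _ _ ≫ st.map (MonObj.mul (X := MUo)))
  (ht : ∀ y : E.U RR, p • y = 0 → y = 0) (hd : ∀ y : E.U RR, ∃ z, y = p • z)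
  (G : RegSeq p E.A) (hG : ∀ k, G.gr k = E.degA (-k))

/-- **The coefficients of `MU`.** -/
def coef : Coef cc (st.obj MUo) G where
  Cl d := Cl st E d
  iso e := fun ⟨_, h⟩ => ⟨_, h.iso e rfl⟩
  deg := fun ⟨_, h⟩ => hG _ ▸ h.deg
  lin d x x' := by
    obtain ⟨π⟩ := nonempty_pre E.o H e₁ d
    obtain ⟨k, a, h⟩ := π.exists_pow H x
    obtain ⟨l, a', h'⟩ := π.exists_pow H x'
    have := H.isIso_pow (k + l) (cc.obj (2 * d))
    refine ⟨n ^ l • a, n ^ k • a', fun m m' => ⟨π.ofIso (asIso (n ^ (k + l) • 𝟙 _)) rfl, ?_⟩⟩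
    refine Rel.of_eq (((h.nsmul H (n ^ l)).zsmul H hU m).add H
      ((h'.nsmul H (n ^ k)).zsmul H hU m')) ?_ rfl
    rw [smul_smul (n ^ l), smul_smul (n ^ k), ← pow_add, ← pow_add, add_comm l, smul_comm m,
      smul_comm m', ← smul_add]
    simp only [Pre.ofIso, Iso.trans_hom, asIso_hom, Category.assoc, Preadditive.nsmul_comp,
      Category.id_comp]
  uniq h h' := h.uniq H hU e₁ hZ hp hn h'
  mul := fun e ⟨_, h⟩ ⟨_, h'⟩ => ⟨_, Rel.of_eq ((h.mul h').iso (Iso.refl _) e)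
    (by rw [hμ, Iso.refl_hom, Category.id_comp, pr2]) rfl⟩
  eq_zero := fun ⟨π, h⟩ => h.eq H hU (Pre.R.zero H π)
  occ {d a} ha := by
    obtain ⟨π⟩ := nonempty_pre E.o H e₁ d
    exact (π.exists_R H (hG d ▸ ha)).imp fun x h => ⟨π, h⟩
  odd_tf := odd_tf H hU e₁ ht
  odd_div := odd_div H hU e₁ hd

theorem coef_cl (d : ℤ) {P : C} (x : P ⟶ st.obj MUo) (a : E.A) :
    (coef H hU e₁ hZ hp hn hμ ht hd G hG).Cl d x a ↔ Cl st E d x a := Iff.rfl

include H hη in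
theorem cl_one : Cl st E 0 (MonObj.one (X := st.obj MUo)) 1 :=
  ⟨_, hη ▸ preLam_one E.o H (𝟙_ O)⟩

include hη in
theorem isV_zero :
    (coef H hU e₁ hZ hp hn hμ ht hd G hG).IsV 0 ((p : ℤ) • MonObj.one (X := st.obj MUo)) := by
  refine ⟨(p : ℤ) • 1, 1, ?_, fun h => hp.not_dvd_one (Int.natCast_dvd_natCast.1 h), ?_⟩
  · rw [pow_zero, sub_self, hη]
    exact ⟨_, (preLam_one E.o H (𝟙_ O)).zsmul H hU p⟩
  · simp [G.v_zero]

include H hU hη in
theorem thom_cel (b : O) {m : ℕ} (hm : Fintype.card b.El = m) (J : Type) [Fintype J]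
    [DecidableEq J] (u : Matrix J b.El ℂ) (hu : uᴴ * u = 1) :
    ∃ (z : 𝟙_ C ⟶ st.obj (Cel (b ⊗ b) (LC.of (Th m b.El))))
      (θ : st.obj (Cel (b ⊗ b) (LC.of (Th m J))) ⟶ st.obj MUo),
        z ≫ st.map (cm (𝟙 _) (Th.map u hu)) ≫ θ = MonObj.one := by
  have hb : (m : ℤ) + Fintype.card b.El = Fintype.card (b ⊗ b).El := by
    rw [← card_tensor, hm, Nat.cast_add]
  obtain ⟨θ, hθ⟩ := H.exists_of_deg (c := b ⊗ b)
    (hb ▸ cross_deg (E.o.tau_deg m J) (linT_deg E.o b))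
  have h1 := hθ.cm (Iso.refl _) ((cpx b).hom ≫ Th.incl' hm ≫ Th.map u hu)
  rw [trU_refl, ← cross_map_left, map_comp, map_comp, tau_map, map_incl'] at h1
  have := H.isIso_stb b b (V b)
  have := H.isIso_lam0 b
  let π : Pre E.toMultTheory st 0 (𝟙_ C) :=
    ⟨b ⊗ b, V b ⊗ V b, E.cross (linV E.o b) (linT E.o b), (gen_linV _ b).cross (gen_linT _ b), by
      rw [add_zero, ← hb, ← hm]
      exact cross_deg (linV_deg _ b) (linT_deg _ b),
      asIso (st.map (stb b b (V b))) ≪≫ asIso (st.map (lam0 b)) ≪≫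
        (Functor.Monoidal.εIso st).symm⟩
  obtain ⟨k, m', h2⟩ := Pre.R.exists_int H hU (π := π)
    (h1.of_eq (π.e.hom_inv_id_assoc _).symm (one_smul _ _).symm) rfl MonObj.one
  obtain ⟨z, hz⟩ := H.pow_div k (m' • π.e.inv ≫ st.map (cm (𝟙 _) ((cpx b).hom ≫ Th.incl' hm)))
  refine ⟨z, θ, H.pow_cancel (k := k) ?_⟩
  rw [h2, ← Preadditive.nsmul_comp, hz, Preadditive.zsmul_comp, Category.assoc,
    ← st.map_comp_assoc, cm_comp, Category.id_comp, Category.assoc]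
  rfl

theorem thom_aux (K : CMod C) (γ : K.G ≅ FCP.ι ⋙ jC O ⋙ st) {X Y : FCat} (f : X.obj ⟶ Y.obj)
    {c : O} {R : C} {x : 𝟙_ C ⟶ R} (z : 𝟙_ C ⟶ st.obj (Cel c X.obj))
    (θ : st.obj (Cel c Y.obj) ⟶ R) (h : z ≫ st.map (cm (𝟙 c) f) ≫ θ = x) :
    ∃ (Z : C) (b : 𝟙_ C ⟶ Z ⊗ K.G.obj X) (θ : Z ⊗ K.G.obj Y ⟶ R),
      b ≫ Z ◁ K.G.map (FCat.hom f) ≫ θ = x := by
  refine ⟨st.obj (rep c), z ≫ δ st _ _ ≫ _ ◁ γ.inv.app X, _ ◁ γ.hom.app Y ≫ μ st _ _ ≫ θ, ?_⟩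
  rw [← h, cm_left, Functor.Monoidal.map_whiskerLeft]
  simp only [Category.assoc, ← MonoidalCategory.whiskerLeft_comp_assoc]
  rw [γ.hom.naturality, γ.inv_hom_id_app_assoc]
  rfl

include H hU hη in
/-- **Thom classes.** -/
theorem thom (K : CMod C) (γ : K.G ≅ FCP.ι ⋙ jC O ⋙ st) : Thom (st.obj MUo) K := fun m => by
  obtain ⟨u, hu⟩ := exists_isom (I := Fin m) (J := Fin (m + m)) (by simp)
  obtain ⟨z, θ, h⟩ := thom_cel H hU hη (O.fin m) (Fintype.card_fin m) (Fin (m + m)) u hu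
  rw [← TO.map_eq_j K.G u hu]
  exact thom_aux K γ (X := ThF m (Fin m)) (Y := ThF m (Fin (m + m))) _ z θ h

end Vale.Agent.P257.P
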