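import Vale.Agent.P251.Q.FGL
import Vale.Agent.P251.F.Height
import Mathlib.NumberTheory.Wilson

/-!
# P257, part P: the isogeny `ψ(z) = ∏_{i<p} (z +_F [i] x)` and the power operation on `v_m`

* `mx F x i = [i]_F x`, `fadd F a b = F(a, b)`, `psi F p x z = ∏_{i<p} F([i] x, z)` at nilpotent
  elements of an algebra;
* `exists_psi_eq` : if `p = 0` and `x ^ p = 0` then `ψ(z) = z ^ p + x ^ (p - 1) a`;
* `coeff_detect` : if `v_0 = … = v_m = 0`, `x ^ p = 0` and `∑ g_i ψ(y) ^ i = ψ([p] y)` over a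
  truncated polynomial algebra in `y`, then `g_{p ^ m} = - x ^ (p - 1) v_{m + 1}`.
-/

open Finset Vale.Agent.P217 Vale.Agent.P251.F Vale.Agent.P251.Q

namespace Vale.Agent.P257.P

section basic

variable {A S S' : Type*} [CommRing A] [CommRing S] [Algebra A S] [CommRing S'] [Algebra A S']

/-- `[i]_F x` -/
noncomputable def mx (F : FormalGroup A) (x : S) (i : ℕ) : S := nev1 x (multSeries F i)

/-- `F(a, b)` -/
noncomputable def fadd (F : FormalGroup A) (a b : S) : S := nev ![a, b] F.toPowerSeries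

/-- `ψ(z) = ∏_{i<p} F([i] x, z)` -/
noncomputable def psi (F : FormalGroup A) (p : ℕ) (x z : S) : S :=
  ∏ i ∈ range p, fadd F (mx F x i) z

variable (F : FormalGroup A)

theorem isNilpotent_mx {x : S} (hx : IsNilpotent x) (i : ℕ) : IsNilpotent (mx F x i) :=
  isNilpotent_nev1 hx (constantCoeff_multSeries F i)

theorem isNilpotent_fadd {a b : S} (ha : IsNilpotent a) (hb : IsNilpotent b) :
    IsNilpotent (fadd F a b) := isNilpotent_nev (isNilpotent_pair ha hb) F.zero_constantCoeff

theorem mx_zero {x : S} (hx : IsNilpotent x) : mx F x 0 = 0 := nev1_multSeries_zero F hx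

theorem map_mx (φ : S →ₐ[A] S') {x : S} (hx : IsNilpotent x) (i : ℕ) :
    φ (mx F x i) = mx F (φ x) i := map_nev1 φ hx _

theorem map_fadd (φ : S →ₐ[A] S') {a b : S} (ha : IsNilpotent a) (hb : IsNilpotent b) :
    φ (fadd F a b) = fadd F (φ a) (φ b) := by
  unfold fadd
  rw [map_nev φ (isNilpotent_pair ha hb)]
  congr 1
  funext s
  fin_cases s <;> rfl

theorem map_psi (φ : S →ₐ[A] S') (p : ℕ) {x z : S} (hx : IsNilpotent x) (hz : IsNilpotent z) :
    φ (psi F p x z) = psi F p (φ x) (φ z) := by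
  unfold psi
  rw [map_prod]
  exact prod_congr rfl fun i _ => by rw [map_fadd F φ (isNilpotent_mx F hx i) hz, map_mx F φ hx]

theorem exists_fadd {a b : S} (ha : IsNilpotent a) (hb : IsNilpotent b) :
    ∃ h : S, fadd F a b = a + b + a * b * h := by
  obtain ⟨H, hH⟩ := exists_FG_decomp F
  have hn := isNilpotent_pair ha hb
  refine ⟨nev ![a, b] H, ?_⟩
  unfold fadd
  rw [hH, nev_add hn, nev_add hn, nev_mul hn, nev_mul hn, nev_X hn, nev_X hn]
  rfl

theorem fadd_zero_left {b : S} (hb : IsNilpotent b) : fadd F 0 b = b := by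
  obtain ⟨h, hh⟩ := exists_fadd F IsNilpotent.zero hb
  rw [hh]; ring

theorem fadd_zero_right {a : S} (ha : IsNilpotent a) : fadd F a 0 = a := by
  obtain ⟨h, hh⟩ := exists_fadd F ha IsNilpotent.zero
  rw [hh]; ring

theorem exists_mx {x : S} (hx : IsNilpotent x) (i : ℕ) :
    ∃ h : S, mx F x i = (i : S) * x + x ^ 2 * h := by
  obtain ⟨h, hh⟩ := exists_multSeries_decomp (F := F) i
  refine ⟨nev1 x h, ?_⟩
  unfold mx
  rw [hh, nev1_add hx, nev1_mul hx, nev1_mul hx, nev1_pow hx, nev1_X hx, nev1_C hx, map_natCast]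

theorem dvd_mx {x : S} (hx : IsNilpotent x) (i : ℕ) : x ∣ mx F x i := by
  obtain ⟨h, hh⟩ := exists_mx F hx i
  exact ⟨i + x * h, by rw [hh]; ring⟩

theorem multSeries_eq_val [F.IsComm] (m : ℕ) :
    (m • ZPt.mk F (PowerSeries.X : PowerSeries A) PowerSeries.constantCoeff_X).val =
      multSeries F m := by
  rw [ZPt.val_nsmul]
  exact PowerSeries.X_subst _

theorem multSeries_add [F.IsComm] (a b : ℕ) : multSeries F (a + b) =
    MvPowerSeries.subst ![multSeries F a, multSeries F b] F.toPowerSeries := by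
  rw [← multSeries_eq_val F (a + b), add_nsmul, ZPt.val_add, multSeries_eq_val,
    multSeries_eq_val]

theorem multSeries_mul [F.IsComm] (a b : ℕ) : multSeries F (a * b) =
    PowerSeries.subst (multSeries F b) (multSeries F a) := by
  rw [← multSeries_eq_val F (a * b), mul_nsmul', ZPt.val_nsmul, multSeries_eq_val]

theorem mx_add [F.IsComm] {x : S} (hx : IsNilpotent x) (a b : ℕ) :
    mx F x (a + b) = fadd F (mx F x a) (mx F x b) := by
  unfold mx
  rw [multSeries_add, nev1_subst₂ hx (constantCoeff_multSeries F a) (constantCoeff_multSeries F b)]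
  rfl

theorem nev1_subst {x : S} (hx : IsNilpotent x) {g : PowerSeries A}
    (hg : PowerSeries.constantCoeff g = 0) (f : PowerSeries A) :
    nev1 x (PowerSeries.subst g f : PowerSeries A) = nev1 (nev1 x g) f := by
  have hs : MvPowerSeries.HasSubst (fun _ : Unit => g) :=
    MvPowerSeries.hasSubst_of_constantCoeff_zero fun _ => hg
  exact nev_subst (fun _ => hx) hs f

theorem mx_mul [F.IsComm] {x : S} (hx : IsNilpotent x) (a b : ℕ) :
    mx F x (a * b) = mx F (mx F x b) a := by
  unfold mx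
  rw [multSeries_mul, nev1_subst hx (constantCoeff_multSeries F b)]

theorem mx_mod [F.IsComm] {x : S} (hx : IsNilpotent x) {p : ℕ} (hp : mx F x p = 0) (a : ℕ) :
    mx F x (a % p) = mx F x a := by
  conv_rhs => rw [← Nat.mod_add_div a p, mx_add F hx, mul_comm, mx_mul F hx, hp]
  have h0 : mx F (0 : S) (a / p) = 0 := zero_dvd_iff.1 (dvd_mx F IsNilpotent.zero _)
  rw [h0, fadd_zero_right F (isNilpotent_mx F hx _)]

/-- expansion of the value of a series up to a given degree -/
theorem exists_nev1_eq {y : S} (hy : IsNilpotent y) (f : PowerSeries A) (q : ℕ) :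
    ∃ s : S, nev1 y f = ∑ i ∈ range q, PowerSeries.coeff i f • y ^ i + y ^ q * s := by
  obtain ⟨N, hN⟩ := hy
  have h : y ^ (q + N) = 0 := by rw [pow_add, hN, mul_zero]
  refine ⟨∑ i ∈ range N, PowerSeries.coeff (q + i) f • y ^ i, ?_⟩
  rw [nev1_eq_sum h, sum_range_add, mul_sum]
  congr 1
  exact sum_congr rfl fun i _ => by rw [pow_add, mul_smul_comm]

/-- the leading term of `[p] y` when `v_0 = … = v_{h-1} = 0` -/
theorem exists_mx_p [F.IsComm] (p : ℕ) [Fact p.Prime] (h : ℕ)
    (hv : ∀ i < h, algebraMap A S (vF p F i) = 0) {y : S} (hy : IsNilpotent y) :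
    ∃ s : S, mx F y p = y ^ p ^ h * (algebraMap A S (vF p F h) + y * s) := by
  obtain ⟨s, hs⟩ := exists_nev1_eq hy (multSeries F p) (p ^ h + 1)
  refine ⟨s, ?_⟩
  have hI : IF p F h ≤ RingHom.ker (algebraMap A S) := (IF_le_iff p F h _).2 hv
  have h0 : ∑ i ∈ range (p ^ h), PowerSeries.coeff i (multSeries F p) • y ^ i = 0 := by
    refine sum_eq_zero fun i hi => ?_
    rcases Nat.eq_zero_or_pos i with rfl | hpos
    · rw [PowerSeries.coeff_zero_eq_constantCoeff_apply, constantCoeff_multSeries, zero_smul]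
    · have hnd : ¬ p ^ h ∣ i := fun hd => by
        have := Nat.le_of_dvd hpos hd
        have := mem_range.1 hi
        omega
      have := hI (Vale.Agent.P251.F.coeff_multSeries_mem p F h i hnd)
      rw [Algebra.smul_def, RingHom.mem_ker.1 this, zero_mul]
  unfold mx
  rw [hs, sum_range_succ, h0, Algebra.smul_def, vF]
  ring

theorem mx_p_eq_zero [F.IsComm] (p : ℕ) [Fact p.Prime] (hp : (p : S) = 0) {x : S}
    (hx : x ^ p = 0) : mx F x p = 0 := by
  obtain ⟨s, hs⟩ := exists_mx_p F p 1 (fun i hi => by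
    obtain rfl : i = 0 := by omega
    rw [vF_zero, map_natCast, hp]) (y := x) ⟨p, hx⟩
  rw [hs, pow_one, hx, zero_mul]

/-- `ψ` is invariant under `x ↦ [j] x`. -/
theorem psi_mx [F.IsComm] {p : ℕ} {x : S} (hx : IsNilpotent x) (hp : mx F x p = 0) {j : ℕ}
    (hj : Nat.Coprime p j) (z : S) : psi F p (mx F x j) z = psi F p x z := by
  unfold psi
  rcases Nat.eq_zero_or_pos p with rfl | hpos
  · simp
  have hmap : ∀ i ∈ range p, i * j % p ∈ range p := fun i _ => mem_range.2 (Nat.mod_lt _ hpos)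
  have hinj : ∀ a ∈ range p, ∀ b ∈ range p, a * j % p = b * j % p → a = b := by
    intro a ha b hb hab
    have h1 : a ≡ b [MOD p] := Nat.ModEq.cancel_right_of_coprime hj hab
    exact Nat.ModEq.eq_of_lt_of_lt h1 (mem_range.1 ha) (mem_range.1 hb)
  refine prod_bij (fun i _ => i * j % p) hmap hinj ?_ ?_
  · intro b hb
    obtain ⟨a, ha, hab⟩ := surj_on_of_inj_on_of_card_le (s := range p) (t := range p)
      (fun i _ => i * j % p) hmap (fun a b ha hb => hinj a ha b hb) le_rfl b hb
    exact ⟨a, ha, hab.symm⟩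
  · intro i _
    rw [mx_mod F hx hp, mx_mul F hx]

theorem dvd_psi_sub (p : ℕ) {x z : S} (hx : IsNilpotent x) (hz : IsNilpotent z) :
    x ∣ psi F p x z - z ^ p := by
  rw [← Ideal.mem_span_singleton, ← Ideal.Quotient.eq_zero_iff_mem, ← Ideal.Quotient.mkₐ_eq_mk A,
    map_sub, map_psi F _ p hx hz, map_pow]
  have h0 : Ideal.Quotient.mkₐ A (Ideal.span {x}) x = 0 :=
    Ideal.Quotient.eq_zero_iff_mem.2 (Ideal.mem_span_singleton_self x)
  have hz' := hz.map (Ideal.Quotient.mkₐ A (Ideal.span {x}))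
  rw [h0, psi, prod_congr rfl fun i _ => by
    rw [zero_dvd_iff.1 (dvd_mx F IsNilpotent.zero i), fadd_zero_left F hz'], prod_const,
    card_range, sub_self]

end basic

section key

theorem exists_gen (p : ℕ) [hp : Fact p.Prime] :
    ∃ j : ℕ, Nat.Coprime p j ∧ ∀ r, 0 < r → r < p - 1 → IsCoprime (p : ℤ) ((j : ℤ) ^ r - 1) := by
  obtain ⟨g, hg⟩ := IsCyclic.exists_ofOrder_eq_natCard (α := (ZMod p)ˣ)
  rw [Nat.card_eq_fintype_card, ZMod.card_units] at hg
  refine ⟨(g : ZMod p).val, (ZMod.val_coe_unit_coprime g).symm, fun r hr hr' => ?_⟩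
  refine ((Nat.prime_iff_prime_int.1 hp.out).irreducible.coprime_iff_not_dvd).2 fun hd => ?_
  have h1 := (ZMod.intCast_zmod_eq_zero_iff_dvd _ p).2 hd
  push_cast at h1
  rw [ZMod.natCast_zmod_val, sub_eq_zero] at h1
  have h2 : g ^ r = 1 := Units.ext (by rw [Units.val_pow_eq_pow_val, h1, Units.val_one])
  have := orderOf_le_of_pow_eq_one hr h2
  omega

variable {A S : Type*} [CommRing A] [CommRing S] [Algebra A S] (F : FormalGroup A) [F.IsComm]

theorem exists_psi_eq_aux (p : ℕ) [hp : Fact p.Prime] (hpS : (p : S) = 0) {x z : S}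
    (hx : x ^ p = 0) (hz : IsNilpotent z)
    (hσ : ∀ j : ℕ, ∃ σ : S →ₐ[A] S, σ x = mx F x j ∧ σ z = z ∧ ∀ s, x ∣ σ s - s) :
    x ^ (p - 1) ∣ psi F p x z - z ^ p := by
  have hxn : IsNilpotent x := ⟨p, hx⟩
  obtain ⟨j, hj, hjr⟩ := exists_gen p
  obtain ⟨σ, hσx, hσz, hσs⟩ := hσ j
  have hinv : σ (psi F p x z - z ^ p) = psi F p x z - z ^ p := by
    rw [map_sub, map_pow, map_psi F σ p hxn hz, hσx, hσz,
      psi_mx F hxn (mx_p_eq_zero F p hpS hx) hj]
  have key : ∀ r, r + 1 ≤ p - 1 → x ^ (r + 1) ∣ psi F p x z - z ^ p := by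
    intro r
    induction r with
    | zero => intro _; rw [zero_add, pow_one]; exact dvd_psi_sub F p hxn hz
    | succ r ih =>
      intro hr
      obtain ⟨u, hu⟩ := ih (by omega)
      obtain ⟨h, hh⟩ := exists_mx F hxn j
      obtain ⟨t, ht⟩ := hσs u
      obtain ⟨a, b, hab⟩ := hjr (r + 1) (by omega) (by omega)
      have hab' : (b : S) * ((j : S) ^ (r + 1) - 1) = 1 := by
        have := congrArg (Int.cast : ℤ → S) hab
        push_cast at this
        rwa [hpS, mul_zero, zero_add] at this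
      have h1 : x ^ (r + 1) * u = (x * (j + x * h)) ^ (r + 1) * (u + x * t) := by
        have e1 : σ u = u + x * t := by rw [← ht]; ring
        have e2 : σ x = x * (j + x * h) := by rw [hσx, hh]; ring
        rw [← e1, ← e2, ← map_pow, ← map_mul, ← hu, hinv]
      obtain ⟨c, hc⟩ : x ∣ (j + x * h) ^ (r + 1) - (j : S) ^ (r + 1) := by
        refine dvd_trans ?_ (sub_dvd_pow_sub_pow _ _ _)
        exact ⟨h, by ring⟩
      have h2 : ((j : S) + x * h) ^ (r + 1) = (j : S) ^ (r + 1) + x * c := by rw [← hc]; ring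
      rw [mul_pow, h2] at h1
      rw [hu]
      refine ⟨-b * (c * u + j ^ (r + 1) * t + x * c * t), ?_⟩
      have h3 : x ^ (r + 1) * u = b * ((j : S) ^ (r + 1) - 1) * (x ^ (r + 1) * u) := by
        rw [hab', one_mul]
      rw [h3]
      linear_combination (-b : S) * h1
  have h2 := hp.out.two_le
  have := key (p - 2) (by omega)
  rwa [show p - 2 + 1 = p - 1 by omega] at this

/-- If `p = 0` and `x ^ p = 0` then `ψ(z) = z ^ p + x ^ (p - 1) a`. -/
theorem exists_psi_eq (p : ℕ) [hp : Fact p.Prime] (hpS : (p : S) = 0) {x z : S}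
    (hx : x ^ p = 0) (hz : IsNilpotent z) : ∃ a : S, psi F p x z = z ^ p + x ^ (p - 1) * a := by
  let S' := AdjoinRoot (Polynomial.X ^ p : Polynomial S)
  let x' : S' := AdjoinRoot.root _
  have hx' : x' ^ p = 0 := by
    have := AdjoinRoot.eval₂_root (Polynomial.X ^ p : Polynomial S)
    rwa [Polynomial.eval₂_pow, Polynomial.eval₂_X] at this
  have hxn : IsNilpotent x' := ⟨p, hx'⟩
  have hp' : (p : S') = 0 := by rw [← map_natCast (algebraMap S S'), hpS, map_zero]
  have hz' : IsNilpotent (algebraMap S S' z) := hz.map _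
  have h := exists_psi_eq_aux F p hp' hx' hz' fun j => by
    have hj : (mx F x' j) ^ p = 0 := by
      obtain ⟨c, hc⟩ := dvd_mx F hxn j
      rw [hc, mul_pow, hx', zero_mul]
    let σ : S' →ₐ[S] S' := AdjoinRoot.liftAlgHom _ (Algebra.ofId S S') (mx F x' j) (by
      rw [Polynomial.eval₂_pow, Polynomial.eval₂_X, hj])
    have hσ : σ x' = mx F x' j := AdjoinRoot.liftAlgHom_root _ _ _ _
    refine ⟨σ.restrictScalars A, hσ, σ.commutes z, fun s => ?_⟩
    have h1 : (Ideal.Quotient.mkₐ S (Ideal.span {x'})).comp σ =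
        Ideal.Quotient.mkₐ S (Ideal.span {x'}) := by
      refine AdjoinRoot.algHom_ext ?_
      change Ideal.Quotient.mk _ (σ x') = Ideal.Quotient.mk _ x'
      rw [hσ, Ideal.Quotient.eq_zero_iff_mem.2 (Ideal.mem_span_singleton_self x'),
        Ideal.Quotient.eq_zero_iff_mem.2 (Ideal.mem_span_singleton.2 (dvd_mx F hxn j))]
    rw [← Ideal.mem_span_singleton, ← Ideal.Quotient.eq]
    exact AlgHom.congr_fun h1 s
  let π : S' →ₐ[S] S := AdjoinRoot.liftAlgHom _ (AlgHom.id S S) x (by
      rw [Polynomial.eval₂_pow, Polynomial.eval₂_X, hx])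
  have hπ : π x' = x := AdjoinRoot.liftAlgHom_root _ _ _ _
  obtain ⟨a, ha⟩ := h
  refine ⟨π a, ?_⟩
  have h2 := congrArg (π.restrictScalars A) ha
  rw [map_sub, map_psi F _ p hxn hz', map_mul, map_pow, map_pow] at h2
  have e1 : π.restrictScalars A x' = x := hπ
  have e2 : π.restrictScalars A (algebraMap S S' z) = z := π.commutes z
  rw [e1, e2] at h2
  rw [← sub_eq_iff_eq_add']
  exact h2

omit [F.IsComm] in
/-- the Euler class `∏_{0<i<p} [i] x` of the reduced regular representation -/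
theorem nev1_wSeries {x : S} (hx : IsNilpotent x) (p : ℕ) :
    nev1 x (wSeries F p) = ∏ i ∈ range (p - 1), mx F x (i + 1) := by
  unfold wSeries nev1
  rw [← nevHom_apply (fun _ => hx), map_prod]
  exact prod_congr rfl fun i _ => nevHom_apply (fun _ => hx) _

omit [F.IsComm] in
theorem prod_mx_eq (p : ℕ) [hp : Fact p.Prime] (hpS : (p : S) = 0) {x : S} (hx : x ^ p = 0) :
    ∏ i ∈ range (p - 1), mx F x (i + 1) = -x ^ (p - 1) := by
  have hxn : IsNilpotent x := ⟨p, hx⟩
  rw [← nev1_wSeries F hxn, wSeries_eq, nev1_mul hxn, nev1_pow hxn, nev1_X hxn]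
  obtain ⟨s, hs⟩ := exists_nev1_eq hxn (fSeries F p) 1
  rw [hs, sum_range_one, coeff_zero_fSeries, pow_zero, pow_one, Algebra.smul_def, map_natCast,
    mul_one]
  have hw : (((p - 1).factorial : ℕ) : S) = -1 := by
    have h1 : (p : ℤ) ∣ (((p - 1).factorial : ℕ) : ℤ) + 1 := by
      rw [← ZMod.intCast_zmod_eq_zero_iff_dvd]
      push_cast
      rw [ZMod.wilsons_lemma, neg_add_cancel]
    obtain ⟨c, hc⟩ := h1
    have := congrArg (Int.cast : ℤ → S) hc
    push_cast at this
    rw [hpS, zero_mul] at this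
    exact eq_neg_of_add_eq_zero_left this
  have hx1 : x ^ (p - 1) * x = 0 := by
    rw [← pow_succ, Nat.sub_add_cancel hp.out.one_le, hx]
  rw [hw]
  linear_combination s * hx1

omit [F.IsComm] in
/-- `ψ(t) = t χ` modulo `t ^ 2` -/
theorem exists_psi_lin {p : ℕ} (hp : 0 < p) {x t : S} (hx : IsNilpotent x) (ht : IsNilpotent t) :
    ∃ s : S, psi F p x t = t * ∏ i ∈ range (p - 1), mx F x (i + 1) + t ^ 2 * s := by
  obtain ⟨k, rfl⟩ : ∃ k, p = k + 1 := ⟨p - 1, by omega⟩
  have h : t ∣ ∏ i ∈ range k, fadd F (mx F x (i + 1)) t - ∏ i ∈ range k, mx F x (i + 1) := by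
    rw [← Ideal.mem_span_singleton, ← Ideal.Quotient.eq, map_prod, map_prod]
    refine prod_congr rfl fun i _ => ?_
    rw [Ideal.Quotient.eq, Ideal.mem_span_singleton]
    obtain ⟨h, hh⟩ := exists_fadd F (isNilpotent_mx F hx (i + 1)) ht
    exact ⟨1 + mx F x (i + 1) * h, by rw [hh]; ring⟩
  obtain ⟨s, hs⟩ := h
  refine ⟨s, ?_⟩
  rw [psi, prod_range_succ', mx_zero F hx, fadd_zero_left F ht, Nat.add_sub_cancel]
  linear_combination t * hs

end key

section main

variable {A R S : Type*} [CommRing A] [CommRing R] [CommRing S] [Algebra A R] [Algebra R S]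
  [Algebra A S] [IsScalarTower A R S]

theorem coeff_eq_zero_of_dvd {y : S} {N : ℕ} (hy : y ^ N = 0)
    (hli : LinearIndependent R fun i : Fin N => y ^ (i : ℕ)) (f : Polynomial R) {k : ℕ}
    (hk : k ≤ N) (h : y ^ k ∣ Polynomial.aeval y f) {i : ℕ} (hi : i < k) : f.coeff i = 0 := by
  obtain ⟨s, hs⟩ := h
  set f' := f * Polynomial.X ^ (N - k) with hf'
  have h1 : Polynomial.aeval y f' = 0 := by
    rw [hf', map_mul, map_pow, Polynomial.aeval_X, hs, mul_right_comm, ← pow_add,
      Nat.add_sub_cancel' hk, hy, zero_mul]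
  have h2 : Polynomial.aeval y f' = ∑ j : Fin N, f'.coeff j • y ^ (j : ℕ) := by
    rw [Polynomial.aeval_eq_sum_range' (n := N + (f'.natDegree + 1)) (by omega), sum_range_add,
      sum_range (fun j => f'.coeff j • y ^ j), sum_eq_zero (s := range (f'.natDegree + 1)),
      add_zero]
    intro j _
    rw [pow_add, hy, zero_mul, smul_zero]
  have h3 := Fintype.linearIndependent_iff.1 hli _ (h2.symm.trans h1) ⟨i + (N - k), by omega⟩
  rwa [hf', Polynomial.coeff_mul_X_pow] at h3

theorem coeff_sum_monomial (c : ℕ → R) {p : ℕ} (hp : 0 < p) {n i : ℕ} (hi : i < n) :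
    (∑ j ∈ range n, Polynomial.monomial (p * j) (c j)).coeff (p * i) = c i := by
  rw [Polynomial.finsetSum_coeff, sum_eq_single i]
  · rw [Polynomial.coeff_monomial, if_pos rfl]
  · intro j _ hj
    rw [Polynomial.coeff_monomial, if_neg fun h => hj (Nat.eq_of_mul_eq_mul_left hp h)]
  · intro h
    exact absurd (mem_range.2 hi) h

theorem exists_add_pow {a w b : S} (hw : w * w = 0) (i : ℕ) :
    (a + w * b) ^ i = a ^ i + w * (i * b * a ^ (i - 1)) := by
  induction i with
  | zero => simp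
  | succ i ih =>
    rcases Nat.eq_zero_or_pos i with rfl | hi
    · simp
    · obtain ⟨k, rfl⟩ : ∃ k, i = k + 1 := ⟨i - 1, by omega⟩
      rw [pow_succ, ih, Nat.add_sub_cancel, Nat.add_sub_cancel]
      push_cast
      linear_combination ((k : S) + 1) * b * b * a ^ k * hw

/-- **The power operation on `v_m`.**  If `v_0 = … = v_m = 0` and `x ^ p = 0` in `R` and
`∑ g_i ψ(y) ^ i = ψ([p] y)` in `R[y]/(y ^ N)`, then `g_{p ^ m} = - x ^ (p - 1) v_{m + 1}`. -/
theorem coeff_detect (F : FormalGroup A) [F.IsComm] (p : ℕ) [hp : Fact p.Prime] (hp2 : p ≠ 2)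
    (m : ℕ) (hv : ∀ i ≤ m, algebraMap A R (vF p F i) = 0) {x : R} (hx : x ^ p = 0) {y : S} {N : ℕ}
    (hy : y ^ N = 0) (hli : LinearIndependent R fun i : Fin N => y ^ (i : ℕ))
    (hN : p ^ (m + 1) + p + 1 ≤ N) (g : ℕ → R) {n : ℕ} (hn : p ^ m < n)
    (h : ∑ i ∈ range n, g i • psi F p (algebraMap R S x) y ^ i =
      psi F p (algebraMap R S x) (mx F y p)) :
    g (p ^ m) = -x ^ (p - 1) * algebraMap A R (vF p F (m + 1)) := by
  have hp3 : 3 ≤ p := by have := hp.out.two_le; omega
  have hvS : ∀ i < m + 1, algebraMap A S (vF p F i) = 0 := fun i hi => by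
    rw [IsScalarTower.algebraMap_apply A R S, hv i (by omega), map_zero]
  have hpS : (p : S) = 0 := by
    have := hvS 0 (by omega)
    rwa [vF_zero, map_natCast] at this
  set x' := algebraMap R S x with hx'
  have hxp : x' ^ p = 0 := by rw [hx', ← map_pow, hx, map_zero]
  have hxn : IsNilpotent x' := ⟨p, hxp⟩
  have hyn : IsNilpotent y := ⟨N, hy⟩
  have htn := isNilpotent_mx F hyn p
  set q := p ^ (m + 1) with hq
  have hqp : p ≤ q := by
    rw [hq, pow_succ]
    exact Nat.le_mul_of_pos_left _ (pow_pos (by omega) _)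
  have hM : q + p + 1 ≤ q * p := by nlinarith
  set w := x' ^ (p - 1) with hw
  have hww : w * w = 0 := by
    rw [hw, ← pow_add, show p - 1 + (p - 1) = p + (p - 2) by omega, pow_add, hxp, zero_mul]
  obtain ⟨a, ha⟩ := exists_psi_eq F p hpS hxp hyn
  obtain ⟨a', ha'⟩ := exists_psi_eq F p hpS hxp htn
  obtain ⟨s, hs⟩ := exists_mx_p F p (m + 1) hvS hyn
  obtain ⟨s', hs'⟩ := exists_psi_lin F (p := p) (by omega) hxn htn
  rw [prod_mx_eq F p hpS hxp] at hs'
  rw [← hw] at ha ha' hs'
  rw [← hq] at hs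
  have hψ : ∀ i, psi F p x' y ^ i = y ^ (p * i) + w * (i * a * y ^ (p * (i - 1))) := fun i => by
    rw [ha, exists_add_pow hww, ← pow_mul, ← pow_mul]
  have hA : ∀ i < n, p * i < q + p + 1 → x ^ (p - 1) * g i = 0 := by
    intro i hi hi'
    have h1 := coeff_eq_zero_of_dvd hy hli
      (∑ j ∈ range n, Polynomial.monomial (p * j) (x ^ (p - 1) * g j)) hN ?_ hi'
    · rwa [coeff_sum_monomial (fun j => x ^ (p - 1) * g j) (by omega) hi] at h1
    · have h2 : Polynomial.aeval y (∑ j ∈ range n, Polynomial.monomial (p * j)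
          (x ^ (p - 1) * g j)) = w * ∑ i ∈ range n, g i • psi F p x' y ^ i := by
        rw [map_sum, mul_sum]
        refine sum_congr rfl fun j _ => ?_
        rw [Polynomial.aeval_monomial, hψ, Algebra.smul_def, map_mul, map_pow, ← hx', ← hw]
        linear_combination (-(algebraMap R S (g j)) * (j * a * y ^ (p * (j - 1)))) * hww
      rw [h2, h, ha', mul_add, ← mul_assoc, hww, zero_mul, add_zero, hs, mul_pow, ← pow_mul]
      exact ((pow_dvd_pow y hM).mul_right _).mul_left _
  have h1 := coeff_eq_zero_of_dvd hy hli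
    (∑ j ∈ range n, Polynomial.monomial (p * j) (g j) -
      Polynomial.monomial q (-x ^ (p - 1) * algebraMap A R (vF p F (m + 1)))) (k := q + 1)
      (by omega) ?_ (Nat.lt_succ_self q)
  · rw [Polynomial.coeff_sub, Polynomial.coeff_monomial, if_pos rfl, hq, pow_succ',
      coeff_sum_monomial g (by omega) hn] at h1
    exact sub_eq_zero.1 h1
  · have h2 : y ^ (q + 1) ∣ ∑ i ∈ range n, g i • psi F p x' y ^ i -
        Polynomial.aeval y (∑ j ∈ range n, Polynomial.monomial (p * j) (g j)) := by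
      rw [map_sum, ← sum_sub_distrib]
      refine dvd_sum fun i hi => ?_
      rw [Polynomial.aeval_monomial, hψ, Algebra.smul_def, mul_add, add_sub_cancel_left]
      rcases lt_or_ge (p * i) (q + p + 1) with hlt | hge
      · have h3 := congrArg (algebraMap R S) (hA i (mem_range.1 hi) hlt)
        rw [map_mul, map_pow, ← hx', ← hw, map_zero] at h3
        rw [← mul_assoc, mul_comm _ w, h3, zero_mul]
        exact dvd_zero _
      · have h3 : q + 1 ≤ p * (i - 1) := by
          rw [Nat.mul_sub_one]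
          omega
        exact (((pow_dvd_pow y h3).mul_left _).mul_left _).mul_left _
    have h3 : y ^ (q + 1) ∣ psi F p x' (mx F y p) - Polynomial.aeval y
        (Polynomial.monomial q (-x ^ (p - 1) * algebraMap A R (vF p F (m + 1)))) := by
      rw [Polynomial.aeval_monomial, hs', map_mul, map_neg, map_pow, ← hx', ← hw,
        ← IsScalarTower.algebraMap_apply A R S, hs]
      obtain ⟨k, hk⟩ : ∃ k, q = k + 1 := ⟨q - 1, by omega⟩
      refine ⟨-(w * s) + y ^ k * (algebraMap A S (vF p F (m + 1)) + y * s) ^ 2 * s', ?_⟩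
      rw [hk]
      ring
    rw [h] at h2
    have h4 := dvd_sub h3 h2
    rw [map_sub]
    convert h4 using 1
    ring

end main

end Vale.Agent.P257.P
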