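import Vale.Agent.P257.P.Isog

/-!
# P257, part P: ideal forms of the computation of the power operation on `v_m`

* `coeff_detect_mem` : `coeff_detect` modulo an ideal `J` containing `x ^ p`, `v_0, …, v_m`;
* `exists_div_eq` : `⟨p⟩(x) = p + p x s + x ^ (p - 1) v_1 + x ^ p t`;
* `div_mem` : `⟨p⟩(x) ∈ J` if `J` contains `x ^ p`, `v_0`, `v_1`;
* `chi_add_mem` : `∏_{0<i<p} [i] x + x ^ (p - 1) ∈ J` if `J` contains `x ^ p` and `p`.
-/

open Finset Vale.Agent.P217 Vale.Agent.P251.F Vale.Agent.P251.Q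

namespace Vale.Agent.P257.P

variable {A R S : Type*} [CommRing A] [CommRing R] [CommRing S] [Algebra A R] [Algebra A S]

theorem exists_coord_of_mem_map (ι : R →+* S) (J : Ideal R) {T : Type*} [Fintype T] (b : T → S)
    (hs : Function.Surjective fun u : T → R => ∑ i, ι (u i) * b i) {t : S} (ht : t ∈ J.map ι) :
    ∃ u : T → R, (∀ i, u i ∈ J) ∧ ∑ i, ι (u i) * b i = t := by
  have key : ∀ s : S, ∃ u : T → R, (∀ i, u i ∈ J) ∧ ∑ i, ι (u i) * b i = s * t := by
    refine Submodule.span_induction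
      (p := fun t _ => ∀ s : S, ∃ u : T → R, (∀ i, u i ∈ J) ∧ ∑ i, ι (u i) * b i = s * t)
      ?_ ?_ ?_ ?_ ht
    · rintro _ ⟨j, hj, rfl⟩ s
      obtain ⟨u, rfl⟩ := hs s
      refine ⟨fun i => u i * j, fun i => J.mul_mem_left _ hj, ?_⟩
      rw [sum_mul]
      exact sum_congr rfl fun i _ => by rw [map_mul]; ring
    · intro s
      exact ⟨0, fun _ => J.zero_mem, by simp⟩
    · intro a c _ _ ha hc s
      obtain ⟨u, hu, hu'⟩ := ha s
      obtain ⟨v, hv, hv'⟩ := hc s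
      refine ⟨u + v, fun i => J.add_mem (hu i) (hv i), ?_⟩
      rw [mul_add, ← hu', ← hv', ← sum_add_distrib]
      exact sum_congr rfl fun i _ => by rw [Pi.add_apply, map_add, add_mul]
    · intro a c _ hc s
      obtain ⟨u, hu, hu'⟩ := hc (s * a)
      exact ⟨u, hu, by rw [hu', smul_eq_mul, mul_assoc]⟩
  simpa using key 1

/-- **The power operation on `v_m`**, modulo an ideal. -/
theorem coeff_detect_mem (F : FormalGroup A) [F.IsComm] (p : ℕ) [hp : Fact p.Prime] (hp2 : p ≠ 2)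
    (m : ℕ) (ι : R →ₐ[A] S) (J : Ideal R) (hv : ∀ i ≤ m, algebraMap A R (vF p F i) ∈ J) {x : R}
    (hxn : IsNilpotent x) (hx : x ^ p ∈ J) {y : S} {N : ℕ} (hy : y ^ N = 0)
    (hfree : Function.Bijective fun u : Fin N → R => ∑ i, ι (u i) * y ^ (i : ℕ))
    (hN : p ^ (m + 1) + p + 1 ≤ N) (g : ℕ → R) {n : ℕ} (hn : p ^ m < n)
    (h : ∑ i ∈ range n, ι (g i) * psi F p (ι x) y ^ i - psi F p (ι x) (mx F y p) ∈ J.map ι) :
    g (p ^ m) + x ^ (p - 1) * algebraMap A R (vF p F (m + 1)) ∈ J := by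
  let J' : Ideal S := J.map ι
  let φ : R ⧸ J →+* S ⧸ J' := Ideal.quotientMap J' (ι : R →+* S) Ideal.le_comap_map
  let _ : Algebra (R ⧸ J) (S ⧸ J') := φ.toAlgebra
  have hφ : ∀ r : R, algebraMap (R ⧸ J) (S ⧸ J') (Ideal.Quotient.mk J r) =
      Ideal.Quotient.mk J' (ι r) := fun r => rfl
  have _ : IsScalarTower A (R ⧸ J) (S ⧸ J') := IsScalarTower.of_algebraMap_eq fun a => by
    rw [← Ideal.Quotient.mk_algebraMap A J, hφ, ι.commutes, Ideal.Quotient.mk_algebraMap]
  have hyn : IsNilpotent y := ⟨N, hy⟩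
  have hli : LinearIndependent (R ⧸ J) fun i : Fin N => Ideal.Quotient.mk J' y ^ (i : ℕ) := by
    rw [Fintype.linearIndependent_iff]
    intro c hc i
    choose r hr using fun i => Ideal.Quotient.mk_surjective (c i)
    have h1 : ∑ i, ι (r i) * y ^ (i : ℕ) ∈ J.map (ι : R →+* S) := by
      refine Ideal.Quotient.eq_zero_iff_mem.1 (Eq.trans ?_ hc)
      rw [map_sum]
      exact sum_congr rfl fun i _ => by
        rw [← hr, Algebra.smul_def, hφ, map_mul, map_pow]; rfl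
    obtain ⟨u, hu, hu'⟩ := exists_coord_of_mem_map (ι : R →+* S) J _ hfree.2 h1
    have h2 : u = r := hfree.1 hu'
    rw [← hr, Ideal.Quotient.eq_zero_iff_mem, ← h2]
    exact hu i
  have h1 := coeff_detect (R := R ⧸ J) (S := S ⧸ J') F p hp2 m
    (fun i hi => by
      rw [← Ideal.Quotient.mk_algebraMap A J]; exact Ideal.Quotient.eq_zero_iff_mem.2 (hv i hi))
    (x := Ideal.Quotient.mk J x) (by rw [← map_pow]; exact Ideal.Quotient.eq_zero_iff_mem.2 hx)
    (y := Ideal.Quotient.mk J' y) (by rw [← map_pow, hy, map_zero]) hli hN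
    (fun i => Ideal.Quotient.mk J (g i)) hn (by
      have h2 := Ideal.Quotient.eq.2 h
      rw [← Ideal.Quotient.mkₐ_eq_mk A, map_sum,
        map_psi F _ p (hxn.map ι) (isNilpotent_mx F hyn p), map_mx F _ hyn] at h2
      refine Eq.trans (sum_congr rfl fun i _ => ?_) h2
      rw [map_mul, map_pow, map_psi F _ p (hxn.map ι) hyn, Algebra.smul_def]
      rfl)
  rw [← Ideal.Quotient.eq_zero_iff_mem, map_add, h1, map_mul, map_pow,
    Ideal.Quotient.mk_algebraMap]
  ring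

/-- `⟨p⟩(x) = p + p x s + x ^ (p - 1) v_1 + x ^ p t` -/
theorem exists_div_eq (F : FormalGroup A) [F.IsComm] (p : ℕ) [hp : Fact p.Prime] {x : R}
    (hxn : IsNilpotent x) : ∃ s t : R, nev1 x (divSeries F p) =
      p + p * x * s + x ^ (p - 1) * algebraMap A R (vF p F 1) + x ^ p * t := by
  obtain ⟨k, hk⟩ : ∃ k, p = k + 2 := ⟨p - 2, by have := hp.out.two_le; omega⟩
  obtain ⟨t, ht⟩ := exists_nev1_eq hxn (divSeries F p) (k + 2)
  have h1 : (p : R) * x ∣ ∑ i ∈ range k, PowerSeries.coeff (i + 1) (divSeries F p) • x ^ (i + 1) := by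
    refine dvd_sum fun i hi => ?_
    have hnd : ¬ p ^ 1 ∣ i + 1 + 1 := fun hd => by
      have := Nat.le_of_dvd (by omega) hd
      have := mem_range.1 hi
      rw [pow_one] at *
      omega
    have h2 := Vale.Agent.P251.F.coeff_multSeries_mem p F 1 _ hnd
    have h3 : IF p F 1 ≤ Ideal.span {(p : A)} := (IF_le_iff p F 1 _).2 fun j hj => by
      obtain rfl : j = 0 := by omega
      rw [vF_zero]
      exact Ideal.mem_span_singleton_self _
    obtain ⟨c, hc⟩ := Ideal.mem_span_singleton.1 (h3 h2)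
    rw [divSeries, PowerSeries.coeff_mk, hc, Algebra.smul_def, map_mul, map_natCast]
    exact ⟨algebraMap A R c * x ^ i, by ring⟩
  obtain ⟨s, hs⟩ := h1
  refine ⟨s, t, ?_⟩
  rw [ht, sum_range_succ, sum_range_succ', hs, coeff_zero_divSeries, divSeries,
    PowerSeries.coeff_mk, vF, pow_one, Algebra.smul_def, Algebra.smul_def, map_natCast,
    show k + 1 + 1 = p by omega, show k + 1 = p - 1 by omega]
  ring

theorem div_mem (F : FormalGroup A) [F.IsComm] (p : ℕ) [hp : Fact p.Prime] (J : Ideal R)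
    (h0 : (p : R) ∈ J) (h1 : algebraMap A R (vF p F 1) ∈ J) {x : R} (hxn : IsNilpotent x)
    (hx : x ^ p ∈ J) : nev1 x (divSeries F p) ∈ J := by
  obtain ⟨s, t, h⟩ := exists_div_eq F p hxn
  rw [h, mul_assoc]
  exact J.add_mem (J.add_mem (J.add_mem h0 (J.mul_mem_right _ h0)) (J.mul_mem_left _ h1))
    (J.mul_mem_right _ hx)

theorem chi_add_mem (F : FormalGroup A) (p : ℕ) [hp : Fact p.Prime] (J : Ideal R)
    (h0 : (p : R) ∈ J) {x : R} (hxn : IsNilpotent x) (hx : x ^ p ∈ J) :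
    nev1 x (wSeries F p) + x ^ (p - 1) ∈ J := by
  have hx' : Ideal.Quotient.mkₐ A J x ^ p = 0 := by
    rw [← map_pow]; exact Ideal.Quotient.eq_zero_iff_mem.2 hx
  have hp' : (p : R ⧸ J) = 0 := by
    rw [← map_natCast (Ideal.Quotient.mk J)]; exact Ideal.Quotient.eq_zero_iff_mem.2 h0
  rw [← Ideal.Quotient.eq_zero_iff_mem, ← Ideal.Quotient.mkₐ_eq_mk A, map_add, map_nev1 _ hxn,
    nev1_wSeries F ⟨p, hx'⟩, prod_mx_eq F p hp' hx', map_pow, neg_add_cancel]

end Vale.Agent.P257.P
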