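import Vale.Agent.P257.D.OSph
import Vale.Agent.P251.G.ThMap

/-!
# P257, part P: the Thom spaces `N a = Th(|a|, a ⊕ a)` and their structure maps

* `cx A` the complexification of a real matrix, `cv w t = w + i t`;
* `twFun f t : N a → N b` for `f = (A, w) : OH a b` and `t ∈ ℝ^b`:
  `(P, v) ↦ (A P Aᴴ + (1 - A Aᴴ, 0), A v + (w + i (t - A Aᵀ t), 0))`;
* `sumFun' : N a → N b → N (a ⊗ b)` the direct sum.
-/

set_option linter.unusedSectionVars false

open CategoryTheory MonoidalCategory Topology OnePoint Filter Matrix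

noncomputable section

namespace Vale.Agent.P257.P

open Vale.Agent.P251.G Vale.Agent.P251.G.LC Vale.Agent.P257.D

section linalg

variable {ι κ μ ν : Type} [Fintype ι] [Fintype κ] [Fintype μ] [Fintype ν]

/-- complexification of a real matrix -/
def cx (A : Matrix κ ι ℝ) : Matrix κ ι ℂ := A.map Complex.ofRealHom

/-- the complex vector `w + i t` -/
def cv (w t : ι → ℝ) : ι → ℂ := fun i => ⟨w i, t i⟩

theorem cx_apply (A : Matrix κ ι ℝ) (k : κ) (i : ι) : cx A k i = (A k i : ℂ) := rfl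

theorem cx_mul (B : Matrix μ κ ℝ) (A : Matrix κ ι ℝ) : cx (B * A) = cx B * cx A :=
  Matrix.map_mul

theorem cx_conjTranspose (A : Matrix κ ι ℝ) : (cx A)ᴴ = cx Aᵀ := by
  ext i k
  simp [cx_apply, conjTranspose_apply]

theorem cx_one [DecidableEq ι] : cx (1 : Matrix ι ι ℝ) = 1 :=
  Matrix.map_one _ (map_zero _) (map_one _)

theorem cx_fromBlocks (A : Matrix κ ι ℝ) (B : Matrix ν μ ℝ) :
    cx (fromBlocks A 0 0 B) = fromBlocks (cx A) 0 0 (cx B) := by
  ext (i | i) (j | j) <;> simp [cx_apply]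

theorem cx_mulVec_cv (A : Matrix κ ι ℝ) (w t : ι → ℝ) :
    cx A *ᵥ cv w t = cv (A *ᵥ w) (A *ᵥ t) := by
  funext k
  apply Complex.ext
  · simp [mulVec, dotProduct, cv, cx_apply]
  · simp [mulVec, dotProduct, cv, cx_apply]

theorem cv_add (w t w' t' : ι → ℝ) : cv w t + cv w' t' = cv (w + w') (t + t') := rfl

@[simp] theorem cv_zero : cv (0 : ι → ℝ) 0 = 0 := rfl

theorem cv_elim (w t : ι → ℝ) (w' t' : κ → ℝ) :
    cv (Sum.elim w w') (Sum.elim t t') = Sum.elim (cv w t) (cv w' t') := by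
  funext x; rcases x with x | x <;> rfl

theorem nsq_cv (w t : ι → ℝ) : nsq (cv w t) = w ⬝ᵥ w + t ⬝ᵥ t := by
  simp [nsq, cv, dotProduct, Finset.sum_add_distrib, Complex.normSq_mk]

@[fun_prop] theorem continuous_cx {X : Type} [TopologicalSpace X] {A : X → Matrix κ ι ℝ}
    (hA : Continuous A) : Continuous fun x => cx (A x) :=
  hA.matrix_map Complex.continuous_ofReal

@[fun_prop] theorem continuous_cv {X : Type} [TopologicalSpace X] {w t : X → ι → ℝ}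
    (hw : Continuous w) (ht : Continuous t) : Continuous fun x => cv (w x) (t x) := by
  refine continuous_pi fun i => ?_
  have : (fun x => cv (w x) (t x) i) = fun x => (w x i : ℂ) + (t x i : ℂ) * Complex.I := by
    funext x
    apply Complex.ext <;> simp [cv]
  rw [this]
  fun_prop

theorem nsq_add_of_orth {v z : ι → ℂ} (h : star v ⬝ᵥ z = 0) : nsq (v + z) = nsq v + nsq z := by
  have h' : star z ⬝ᵥ v = 0 := by
    have := congrArg star h
    rwa [star_dotProduct, star_star, star_zero] at this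
  apply Complex.ofReal_injective
  rw [Complex.ofReal_add, nsq_eq_dotProduct, nsq_eq_dotProduct, nsq_eq_dotProduct, star_add,
    add_dotProduct, dotProduct_add, dotProduct_add, h, h']
  ring

variable [DecidableEq ι] [DecidableEq κ] [DecidableEq μ] [DecidableEq ν]

/-- two copies of the complexified isometry -/
def fA (f : OH ι κ) : Matrix (κ ⊕ κ) (ι ⊕ ι) ℂ := fromBlocks (cx f.A) 0 0 (cx f.A)

/-- the projection to the complement, in the first copy -/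
def fQ (f : OH ι κ) : Matrix (κ ⊕ κ) (κ ⊕ κ) ℂ := fromBlocks (1 - cx f.A * (cx f.A)ᴴ) 0 0 0

/-- the component orthogonal to the image -/
def prj (f : OH ι κ) (t : κ → ℝ) : κ → ℝ := t - f.A *ᵥ (f.Aᵀ *ᵥ t)

/-- the translation vector -/
def fz (f : OH ι κ) (t : κ → ℝ) : κ ⊕ κ → ℂ := Sum.elim (cv f.w (prj f t)) 0

theorem cx_isom (f : OH ι κ) : (cx f.A)ᴴ * cx f.A = 1 := by
  rw [cx_conjTranspose, ← cx_mul, f.transpose_mul_self, cx_one]

theorem fA_isom (f : OH ι κ) : (fA f)ᴴ * fA f = 1 := isom_fromBlocks (cx_isom f) (cx_isom f)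

theorem transpose_prj (f : OH ι κ) (t : κ → ℝ) : f.Aᵀ *ᵥ prj f t = 0 := by
  rw [prj, mulVec_sub, f.iso, sub_self]

theorem prj_of_orth (f : OH ι κ) {t : κ → ℝ} (h : f.Aᵀ *ᵥ t = 0) : prj f t = t := by
  rw [prj, h, mulVec_zero, sub_zero]

theorem prj_prj (f : OH ι κ) (t : κ → ℝ) : prj f (prj f t) = prj f t :=
  prj_of_orth f (transpose_prj f t)

theorem dot_prj (f : OH ι κ) (t : κ → ℝ) :
    t ⬝ᵥ t = prj f t ⬝ᵥ prj f t + (f.Aᵀ *ᵥ t) ⬝ᵥ (f.Aᵀ *ᵥ t) := by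
  have h1 : t = prj f t + f.A *ᵥ (f.Aᵀ *ᵥ t) := by rw [prj, sub_add_cancel]
  have h2 : prj f t ⬝ᵥ (f.A *ᵥ (f.Aᵀ *ᵥ t)) = 0 := by
    rw [dotProduct_mulVec, ← mulVec_transpose, transpose_prj, zero_dotProduct]
  conv_lhs => rw [h1]
  rw [add_dotProduct, dotProduct_add, dotProduct_add, h2,
    dotProduct_comm (f.A *ᵥ (f.Aᵀ *ᵥ t)) (prj f t), h2, f.dot_A]
  ring

theorem fA_mul_fQ (f : OH ι κ) : (fA f)ᴴ * fQ f = 0 := by
  rw [fA, fQ, fromBlocks_conjTranspose, fromBlocks_multiply]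
  simp [Matrix.mul_sub, ← Matrix.mul_assoc, cx_isom]

theorem fQ_herm (f : OH ι κ) : (fQ f)ᴴ = fQ f := by
  rw [fQ, fromBlocks_conjTranspose]
  simp

theorem fQ_mul_fA (f : OH ι κ) : fQ f * fA f = 0 := by
  have := congrArg conjTranspose (fA_mul_fQ f)
  rwa [conjTranspose_mul, conjTranspose_conjTranspose, fQ_herm, conjTranspose_zero] at this

theorem fQ_idem (f : OH ι κ) : fQ f * fQ f = fQ f := by
  rw [fQ, fromBlocks_multiply]
  have h : cx f.A * (cx f.A)ᴴ * (cx f.A * (cx f.A)ᴴ) = cx f.A * (cx f.A)ᴴ := by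
    rw [Matrix.mul_assoc, ← Matrix.mul_assoc (cx f.A)ᴴ, cx_isom, Matrix.one_mul]
  simp [Matrix.mul_sub, Matrix.sub_mul, h]

theorem fQ_trace (f : OH ι κ) : (fQ f).trace = Fintype.card κ - Fintype.card ι := by
  have h1 : (fQ f).trace = (1 - cx f.A * (cx f.A)ᴴ).trace := by simp [fQ, Matrix.trace]
  rw [h1, trace_sub, trace_mul_comm, cx_isom, trace_one, trace_one]

theorem fA_mulVec_fz (f : OH ι κ) (t : κ → ℝ) : (fA f)ᴴ *ᵥ fz f t = 0 := by
  rw [fA, fz, fromBlocks_conjTranspose, fromBlocks_mulVec, cx_conjTranspose]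
  simp [cx_mulVec_cv, transpose_prj]

theorem fQ_mulVec_fz (f : OH ι κ) (t : κ → ℝ) : fQ f *ᵥ fz f t = fz f t := by
  rw [fQ, fz, fromBlocks_mulVec, cx_conjTranspose]
  simp [sub_mulVec, ← mulVec_mulVec, cx_mulVec_cv, transpose_prj]

theorem isProj_tw (f : OH ι κ) {P : Matrix (ι ⊕ ι) (ι ⊕ ι) ℂ} (h : IsProj (Fintype.card ι) P) :
    IsProj (Fintype.card κ) (fA f * P * (fA f)ᴴ + fQ f) where
  idem := by
    have h1 := (h.conj (u := fA f) (by rw [fA_isom, Matrix.one_mul])).idem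
    rw [Matrix.add_mul, Matrix.mul_add, Matrix.mul_add, h1, fQ_idem, Matrix.mul_assoc _ _ (fQ f),
      fA_mul_fQ, ← Matrix.mul_assoc (fQ f), ← Matrix.mul_assoc (fQ f), fQ_mul_fA]
    simp
  herm := by
    rw [conjTranspose_add, (h.conj (u := fA f) (by rw [fA_isom, Matrix.one_mul])).herm, fQ_herm]
  trace := by
    rw [trace_add, (h.conj (u := fA f) (by rw [fA_isom, Matrix.one_mul])).trace, fQ_trace]
    ring

/-- the structure map of the Thom spaces -/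
def twFun (f : OH ι κ) (t : κ → ℝ) (x : Th (Fintype.card ι) (ι ⊕ ι)) :
    Th (Fintype.card κ) (κ ⊕ κ) :=
  Th.mk (fA f * x.P * (fA f)ᴴ + fQ f) (fA f *ᵥ x.v + fz f t) (isProj_tw f x.isProj) (by
    rw [add_mulVec, mulVec_add, mulVec_add,
      x.isProj.conj_mulVec (by rw [fA_isom, Matrix.one_mul]) x.P_mulVec, fQ_mulVec_fz,
      ← mulVec_mulVec, fA_mulVec_fz, mulVec_mulVec, fQ_mul_fA]
    simp)

@[simp] theorem twFun_P (f : OH ι κ) (t : κ → ℝ) (x : Th (Fintype.card ι) (ι ⊕ ι)) :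
    (twFun f t x).P = fA f * x.P * (fA f)ᴴ + fQ f := rfl

@[simp] theorem twFun_v (f : OH ι κ) (t : κ → ℝ) (x : Th (Fintype.card ι) (ι ⊕ ι)) :
    (twFun f t x).v = fA f *ᵥ x.v + fz f t := rfl

theorem nsq_twFun_v (f : OH ι κ) (t : κ → ℝ) (x : Th (Fintype.card ι) (ι ⊕ ι)) :
    nsq (twFun f t x).v = (f.nrm + prj f t ⬝ᵥ prj f t) + nsq x.v := by
  rw [twFun_v, nsq_add_of_orth, Th.nsq_isom (fA_isom f), fz, nsq_elim, nsq_cv, nsq_zero, add_zero,
    add_comm]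
  · rfl
  · rw [star_mulVec, ← dotProduct_mulVec, fA_mulVec_fz, dotProduct_zero]

theorem twFun_prj (f : OH ι κ) (t : κ → ℝ) : twFun f (prj f t) = twFun f t := by
  funext x
  ext1
  · rfl
  · rw [twFun_v, twFun_v, fz, fz, prj_prj]

theorem fA_comp (f : OH ι κ) (g : OH κ μ) : fA (f.comp g) = fA g * fA f := by
  rw [fA, fA, fA, fromBlocks_multiply, OH.comp_A, cx_mul]
  simp

theorem fQ_comp (f : OH ι κ) (g : OH κ μ) :
    fQ (f.comp g) = fA g * fQ f * (fA g)ᴴ + fQ g := by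
  rw [fQ, fQ, fQ, fA, fromBlocks_conjTranspose, fromBlocks_multiply, fromBlocks_multiply,
    fromBlocks_add, OH.comp_A, cx_mul]
  simp [Matrix.mul_sub, Matrix.sub_mul, Matrix.mul_assoc]

theorem fz_comp (f : OH ι κ) (g : OH κ μ) (t : μ → ℝ) :
    fz (f.comp g) t = fA g *ᵥ fz f (g.Aᵀ *ᵥ t) + fz g t := by
  rw [fz, fz, fz, fA, fromBlocks_mulVec]
  funext x
  rcases x with x | x
  · simp only [Sum.elim_inl, Sum.elim_comp_inl, Sum.elim_comp_inr, zero_mulVec, add_zero,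
      Pi.add_apply]
    rw [cx_mulVec_cv, ← Pi.add_apply, cv_add]
    congr 2
    rw [prj, prj, prj, OH.comp_A, transpose_mul, mulVec_sub, ← mulVec_mulVec, ← mulVec_mulVec]
    abel
  · simp

theorem twFun_comp (f : OH ι κ) (g : OH κ μ) (t : μ → ℝ) (x : Th (Fintype.card ι) (ι ⊕ ι)) :
    twFun (f.comp g) t x = twFun g t (twFun f (g.Aᵀ *ᵥ t) x) := by
  ext1
  · rw [twFun_P, twFun_P, twFun_P, fA_comp, fQ_comp, conjTranspose_mul, Matrix.mul_add,
      Matrix.add_mul]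
    simp only [Matrix.mul_assoc, add_assoc]
  · rw [twFun_v, twFun_v, twFun_v, fA_comp, fz_comp, mulVec_add, mulVec_mulVec, add_assoc]

theorem cx_ofEquiv (e : ι ≃ κ) : cx (OH.ofEquiv e).A = injMat e := by
  ext k i
  rw [cx_apply, OH.ofEquiv_A, injMat_apply, submatrix_apply, one_apply]
  split_ifs <;> simp_all

theorem fA_ofEquiv (e : ι ≃ κ) : fA (OH.ofEquiv e) = injMat (Equiv.sumCongr e e) := by
  rw [fA, cx_ofEquiv]
  ext (k | k) (i | i) <;> simp [injMat_apply]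

theorem fQ_ofEquiv (e : ι ≃ κ) : fQ (OH.ofEquiv e) = 0 := by
  have h := injMat_equiv_conj e (1 : Matrix ι ι ℂ)
  rw [Matrix.mul_one, submatrix_one_equiv] at h
  rw [fQ, cx_ofEquiv, h, sub_self, fromBlocks_zero]

theorem ofEquiv_transpose_mulVec (e : ι ≃ κ) (t : κ → ℝ) : (OH.ofEquiv e).Aᵀ *ᵥ t = t ∘ e := by
  have h := (OH.ofEquiv e).iso (t ∘ e)
  rw [OH.ofEquiv_A_mulVec, Function.comp_assoc, e.self_comp_symm, Function.comp_id] at h
  exact h

theorem fz_ofEquiv (e : ι ≃ κ) (t : κ → ℝ) : fz (OH.ofEquiv e) t = 0 := by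
  rw [fz, prj, ofEquiv_transpose_mulVec, OH.ofEquiv_A_mulVec, Function.comp_assoc,
    e.self_comp_symm, Function.comp_id, sub_self, OH.ofEquiv_w, cv_zero, Sum.elim_zero_zero]

theorem twFun_ofEquiv_P (e : ι ≃ κ) (t : κ → ℝ) (x : Th (Fintype.card ι) (ι ⊕ ι)) :
    (twFun (OH.ofEquiv e) t x).P =
      x.P.submatrix (Equiv.sumCongr e e).symm (Equiv.sumCongr e e).symm := by
  rw [twFun_P, fA_ofEquiv, fQ_ofEquiv, add_zero, injMat_equiv_conj]

theorem twFun_ofEquiv_v (e : ι ≃ κ) (t : κ → ℝ) (x : Th (Fintype.card ι) (ι ⊕ ι)) :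
    (twFun (OH.ofEquiv e) t x).v = x.v ∘ (Equiv.sumCongr e e).symm := by
  rw [twFun_v, fA_ofEquiv, fz_ofEquiv, add_zero, injMat_equiv_mulVec]

theorem twFun_refl (t : ι → ℝ) (x : Th (Fintype.card ι) (ι ⊕ ι)) :
    twFun (OH.ofEquiv (Equiv.refl ι)) t x = x := by
  ext1
  · rw [twFun_ofEquiv_P]
    ext (i | i) (j | j) <;> rfl
  · rw [twFun_ofEquiv_v]
    ext (i | i) <;> rfl

/-- the shuffle of the two copies -/
abbrev shf (ι κ : Type) : (ι ⊕ κ) ⊕ (ι ⊕ κ) ≃ (ι ⊕ ι) ⊕ (κ ⊕ κ) := Equiv.sumSumSumComm ι κ ι κ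

/-- the direct sum -/
def sumFun' (x : Th (Fintype.card ι) (ι ⊕ ι)) (y : Th (Fintype.card κ) (κ ⊕ κ)) :
    Th (Fintype.card (ι ⊕ κ)) ((ι ⊕ κ) ⊕ (ι ⊕ κ)) :=
  Th.mapFun (injMat (shf ι κ).symm) (injMat_isom (shf ι κ).symm.injective)
    (Th.sumFun Fintype.card_sum.symm x y)

theorem sumFun'_P (x : Th (Fintype.card ι) (ι ⊕ ι)) (y : Th (Fintype.card κ) (κ ⊕ κ)) :
    (sumFun' x y).P = (fromBlocks x.P 0 0 y.P).submatrix (shf ι κ) (shf ι κ) :=
  injMat_equiv_conj _ _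

theorem sumFun'_v (x : Th (Fintype.card ι) (ι ⊕ ι)) (y : Th (Fintype.card κ) (κ ⊕ κ)) :
    (sumFun' x y).v = Sum.elim x.v y.v ∘ shf ι κ := injMat_equiv_mulVec _ _

theorem fA_tensor (f : OH ι κ) (g : OH μ ν) :
    fA (f.tensor g) = (fromBlocks (fA f) 0 0 (fA g)).submatrix (shf κ ν) (shf ι μ) := by
  rw [fA, OH.tensor_A, cx_fromBlocks]
  ext ((i | i) | (i | i)) ((j | j) | (j | j)) <;> rfl

theorem fQ_tensor (f : OH ι κ) (g : OH μ ν) :
    fQ (f.tensor g) = (fromBlocks (fQ f) 0 0 (fQ g)).submatrix (shf κ ν) (shf κ ν) := by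
  rw [fQ, OH.tensor_A, cx_fromBlocks, fromBlocks_conjTranspose, fromBlocks_multiply,
    ← fromBlocks_one, sub_eq_add_neg, fromBlocks_neg, fromBlocks_add]
  ext ((i | i) | (i | i)) ((j | j) | (j | j)) <;> simp [fQ, sub_eq_add_neg]

theorem tensor_transpose_mulVec (f : OH ι κ) (g : OH μ ν) (t : κ → ℝ) (t' : ν → ℝ) :
    (f.tensor g).Aᵀ *ᵥ Sum.elim t t' = Sum.elim (f.Aᵀ *ᵥ t) (g.Aᵀ *ᵥ t') := by
  rw [OH.tensor_A, fromBlocks_transpose, fromBlocks_mulVec]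
  simp

theorem prj_tensor (f : OH ι κ) (g : OH μ ν) (t : κ → ℝ) (t' : ν → ℝ) :
    prj (f.tensor g) (Sum.elim t t') = Sum.elim (prj f t) (prj g t') := by
  rw [prj, tensor_transpose_mulVec, OH.tensor_A, fromBlocks_mulVec]
  funext x
  rcases x with x | x <;> simp [prj]

theorem fz_tensor (f : OH ι κ) (g : OH μ ν) (t : κ → ℝ) (t' : ν → ℝ) :
    fz (f.tensor g) (Sum.elim t t') = Sum.elim (fz f t) (fz g t') ∘ shf κ ν := by
  rw [fz, prj_tensor, OH.tensor_w, cv_elim]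
  ext ((i | i) | (i | i)) <;> rfl

theorem twFun_tensor (f : OH ι κ) (g : OH μ ν) (t : κ → ℝ) (t' : ν → ℝ)
    (x : Th (Fintype.card ι) (ι ⊕ ι)) (y : Th (Fintype.card μ) (μ ⊕ μ)) :
    twFun (f.tensor g) (Sum.elim t t') (sumFun' x y) = sumFun' (twFun f t x) (twFun g t' y) := by
  ext1
  · rw [twFun_P, sumFun'_P, sumFun'_P, fA_tensor, fQ_tensor, conjTranspose_submatrix,
      submatrix_mul_equiv, submatrix_mul_equiv, fromBlocks_conjTranspose,
      fromBlocks_multiply, fromBlocks_multiply]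
    simp only [Matrix.mul_zero, Matrix.zero_mul, add_zero, zero_add, conjTranspose_zero]
    ext ((i | i) | (i | i)) ((j | j) | (j | j)) <;> first | rfl | exact add_zero _
  · rw [twFun_v, sumFun'_v, sumFun'_v, fA_tensor, fz_tensor, submatrix_mulVec_equiv,
      Function.comp_assoc, Equiv.self_comp_symm, Function.comp_id, fromBlocks_mulVec]
    ext ((i | i) | (i | i)) <;> simp

end linalg

end Vale.Agent.P257.P
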