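import Vale.Agent.P257.P.Rel
import Vale.Agent.P257.C.Cells

/-!
# P257, part P: presentations of even cells

* `Gen g` : `g` is a generator; `Pre E st d P` : `P` is presented as a cell of dimension `2 d`;
* `π.R o x a` : the map `x : P ⟶ MU` has the coefficient `a` in the presentation `π`;
* `Pre.exists_ratio` : comparison of two presentations.
-/

open CategoryTheory MonoidalCategory Limits Functor.LaxMonoidal Functor.OplaxMonoidal

universe v w u

set_option linter.unusedSectionVars false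

noncomputable section

namespace Vale.Agent.P257.P

open Vale.Agent.P251.H.StabInput (S)
open Vale.Agent.P251.G Vale.Agent.P251.Q Vale.Agent.P251.Q.MultTheory
open Vale.Agent.P251.G.LC (RR)
open Vale.Agent.P257.D Vale.Agent.P257.E
open Vale.Agent.P257.D.EF (rep jC lamC repTensor)
open Vale.Agent.P257.D.O (V)
open Vale.Agent.P257.Det (RepUniq)
open Vale.Agent.P257.C (Cells)

attribute [-instance] instNonUnitalCommRing instCommRing

section gen

variable {E : MultTheory.{v}} {X Y : LC} {g : E.U X} {g' : E.U Y}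

/-- generators -/
def Gen (g : E.U X) : Prop := ∀ (Z : LC) [E.Good Z], Function.Bijective (E.cross (Y := Z) g)

theorem gen_one : Gen E.one := fun Z _ => by
  rw [show (E.cross (Y := Z) E.one : _ → _) = E.map (λ_ Z).hom from funext one_cross]
  exact map_iso_bijective _

variable [E.Good X] [E.Good Y]

theorem Gen.map (h : Gen g) (e : Y ≅ X) : Gen (E.map e.hom g) := fun Z _ => by
  rw [show (E.cross (Y := Z) (E.map e.hom g) : _ → _) =
    E.map (whiskerRightIso e Z).hom ∘ E.cross g from funext fun z => cross_map_left _ _ _]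
  exact (map_iso_bijective _).comp (h Z)

theorem Gen.cross (h : Gen g) (h' : Gen g') : Gen (E.cross g g') := fun Z _ => by
  rw [show (E.cross (Y := Z) (E.cross g g') : _ → _) =
    E.map (α_ X Y Z).hom ∘ E.cross g ∘ E.cross g' from funext fun z => (cross_assoc _ _ _).symm]
  exact (map_iso_bijective _).comp ((h _).comp (h' Z))

theorem gen_linV (o : Orientation E) (b : O) : Gen (linV o b) :=
  Gen.map (fun Z _ => lin_bijective_left o b.El Z) _

theorem linV_deg (o : Orientation E) (b : O) : linV o b ∈ E.deg _ (Fintype.card b.El) :=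
  map_deg _ (lin_deg o _)

theorem smul_eq_cross (a : E.A) (g : E.U X) :
    a • g = E.map (ρ_ X).inv (E.cross g (E.ofA a)) := by
  rw [smul_def, ← cross_comm g, ← map_comp, rightUnitor_inv_braiding]

theorem Gen.bijective (h : Gen g) : Function.Bijective fun a : E.A => a • g := by
  simp only [smul_eq_cross]
  exact (map_iso_bijective (ρ_ X).symm).comp (h _)

theorem Gen.mem_deg (h : Gen g) {k l : ℤ} (hg : g ∈ E.deg X l) {a : E.A}
    (ha : a • g ∈ E.deg X (k + l)) : a ∈ E.degA k :=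
  mem_deg_of_injective (X := 𝟙_ LC) (f := (LinearMap.toSpanSingleton E.A _ g).toAddMonoidHom)
    (fun _ _ hx => smul_deg hx hg) h.bijective.1 ha

end gen

variable {C : Type u} [Category.{w} C] [Preadditive C] [MonoidalCategory C] [SymmetricCategory C]
  [MonoidalPreadditive C]

/-- presentations of even cells -/
structure Pre (E : MultTheory.{v}) (st : EF O ⥤ C) (d : ℤ) (P : C) where
  /-- the index -/
  c : O
  /-- the space -/
  K : LC
  [good : E.Good K]
  /-- the generator -/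
  g : E.U (K ⊗ V c)
  gen : Gen g
  deg : g ∈ E.deg _ (Fintype.card c.El + d)
  /-- the identification -/
  e : st.obj (Cel c K) ≅ P

attribute [instance] Pre.good

variable {st : EF O ⥤ C} [st.Braided] {n : ℕ} {d d' d'' : ℤ} {P Q T : C}

variable (st) in
/-- the product of two maps to `MU` -/
def pr2 (x : P ⟶ st.obj MUo) (z : Q ⟶ st.obj MUo) : P ⊗ Q ⟶ st.obj MUo :=
  (x ⊗ₘ z) ≫ μ st _ _ ≫ st.map (MonObj.mul (X := MUo))

theorem pr2_nsmul (m : ℕ) (x : P ⟶ st.obj MUo) (z : Q ⟶ st.obj MUo) :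
    pr2 st (m • x) z = m • pr2 st x z := by
  rw [pr2, pr2, ← natCast_zsmul, ← natCast_zsmul, ← Preadditive.zsmul_comp, ← mul_one (m : ℤ),
    ← P257.C.zsmul_tensorHom, mul_one, one_smul]

namespace Pre

section mult

variable {E : MultTheory.{v}} (π : Pre E st d P) (σ : Pre E st d' Q) (τ : Pre E st d'' T)

/-- transport along an isomorphism -/
def ofIso (i : P ≅ Q) (h : d = d') : Pre E st d' Q :=
  { π with deg := h ▸ π.deg, e := π.e ≪≫ i }

/-- the product of two presentations -/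
def tensor : Pre E st (d + d') (P ⊗ Q) where
  c := π.c ⊗ σ.c
  K := π.K ⊗ σ.K
  g := mulU π.g σ.g
  gen := (π.gen.cross σ.gen).map _
  deg := by
    rw [← card_tensor, Nat.cast_add, add_add_add_comm]
    exact mulU_deg π.deg σ.deg
  e := st.mapIso (cT _ _ _ _) ≪≫ (Functor.Monoidal.μIso st _ _).symm ≪≫ (π.e ⊗ᵢ σ.e)

variable (o : Orientation E)

/-- the coefficient of a map to `MU` -/
def R (x : P ⟶ st.obj MUo) (a : E.A) : Prop := Rel o st (π.e.hom ≫ x) (a • π.g)

variable {π σ τ o} {x : P ⟶ st.obj MUo} {z : Q ⟶ st.obj MUo} {a b : E.A}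

theorem R.iso (h : π.R o x a) (i : Q ≅ P) (k : d = d') : (π.ofIso i.symm k).R o (i.hom ≫ x) a :=
  Rel.of_eq h (by simp [ofIso]) rfl

theorem R.deg (h : π.R o x a) : a ∈ E.degA (-d) :=
  π.gen.mem_deg π.deg (by rw [neg_add_cancel_comm_assoc]; exact Rel.deg h)

theorem R.mul (h : π.R o x a) (k : σ.R o z b) : (π.tensor σ).R o (pr2 st x z) (a * b) :=
  (Rel.mul h k).of_eq (by simp [tensor, pr2, mu2]) (mulU_smul _ _ _ _)

theorem R.assoc {y : P ⊗ Q ⊗ T ⟶ st.obj MUo} (h : (π.tensor (σ.tensor τ)).R o y a) :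
    ((π.tensor σ).tensor τ).R o ((α_ P Q T).hom ≫ y) a := by
  refine (Rel.cm h (α_ π.c σ.c τ.c).symm (α_ π.K σ.K τ.K).hom).of_eq ?_
    ((trU_smul _ _ _ _).trans (congrArg (a • ·) (mulU_assoc π.g σ.g τ.g).symm))
  have h1 := congrArg st.map (cT_assoc (c := π.c) (c' := σ.c) (c'' := τ.c) (K := π.K) (K' := σ.K)
    (K'' := τ.K))
  simp only [Functor.map_comp] at h1
  simp only [tensor, Iso.trans_hom, Functor.mapIso_hom, Iso.symm_hom, Functor.Monoidal.μIso_inv,
    tensorIso_hom, Category.assoc]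
  rw [← Category.id_comp π.e.hom, ← tensorHom_comp_tensorHom, id_tensorHom, Category.id_comp,
    ← Category.id_comp π.e.hom, ← tensorHom_comp_tensorHom, id_tensorHom, Category.id_comp,
    Category.assoc, Category.assoc, δ_natural_right_assoc, ← reassoc_of% h1,
    ← Functor.OplaxMonoidal.associativity_assoc, ← δ_natural_left_assoc,
    ← associator_naturality_assoc, ← comp_whiskerRight_assoc, ← tensorHom_id,
    tensorHom_comp_tensorHom_assoc, Category.id_comp, Category.assoc]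

end mult

variable {E : ThomTheory.{v}} (H : ULoc n st) (π : Pre E.toMultTheory st d P)
  {x x' : P ⟶ st.obj MUo} {a a' : E.A}
include H

theorem exists_R (ha : a ∈ E.degA (-d)) : ∃ x, π.R E.o x a := by
  obtain ⟨x, hx⟩ := H.exists_of_deg (u := a • π.g) (by
    rw [← neg_add_cancel_comm_assoc d (Fintype.card π.c.El : ℤ)]
    exact smul_deg ha π.deg)
  exact ⟨π.e.inv ≫ x, hx.of_eq (π.e.hom_inv_id_assoc x).symm rfl⟩

theorem exists_pow (x : P ⟶ st.obj MUo) : ∃ k a, π.R E.o (n ^ k • x) a := by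
  obtain ⟨k, u, h⟩ := H.exists_rel (o := E.o) (π.e.hom ≫ x)
  obtain ⟨a, rfl⟩ := π.gen.bijective.2 u
  exact ⟨k, a, h.of_eq (Preadditive.comp_nsmul _ _ _).symm rfl⟩

theorem R.zero : π.R E.o 0 0 := (Rel.zero H).of_eq comp_zero.symm (zero_smul _ _).symm

variable {π}

theorem R.add (h : π.R E.o x a) (h' : π.R E.o x' a') : π.R E.o (x + x') (a + a') :=
  (Rel.add H h h').of_eq (Preadditive.comp_add _ _ _ _ _ _).symm (add_smul _ _ _).symm

theorem R.nsmul (h : π.R E.o x a) (m : ℕ) : π.R E.o (m • x) (m • a) :=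
  (Rel.nsmul H h m).of_eq (Preadditive.comp_nsmul _ _ _).symm (smul_assoc _ _ _).symm

variable (hU : RepUniq E.o)
include hU

theorem R.zsmul (h : π.R E.o x a) (m : ℤ) : π.R E.o (m • x) (m • a) :=
  (Rel.zsmul H hU h m).of_eq (Preadditive.comp_zsmul _ _ _).symm (smul_assoc _ _ _).symm

theorem R.eq (h : π.R E.o x a) (h' : π.R E.o x' a) : x = x' :=
  (cancel_epi π.e.hom).1 (Rel.eq_of_eq H hU h h')

theorem R.uniq (h : π.R E.o x a) (h' : π.R E.o x a') : ∃ k, n ^ k • a = n ^ k • a' :=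
  (Rel.uniq H hU h h').imp fun _ e => π.gen.bijective.1
    ((smul_assoc _ _ _).trans (e.trans (smul_assoc _ _ _).symm))

theorem R.exists_int (h : π.R E.o x 1) (hd : d = 0) (y : P ⟶ st.obj MUo) :
    ∃ (k : ℕ) (m : ℤ), n ^ k • y = m • x := by
  obtain ⟨k, b, hb⟩ := π.exists_pow H y
  obtain ⟨m, rfl⟩ : ∃ m : ℤ, b = m • 1 := E.deg_unit_zero b (by
    have := hb.deg
    rwa [hd, neg_zero] at this)
  exact ⟨k, m, hb.eq H hU (h.zsmul H hU m)⟩

/-- Two presentations differ by a unit. -/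
theorem exists_ratio (hZ : ∀ m : ℤ, m • E.one = 0 → m = 0) (π π' : Pre E.toMultTheory st d P)
    (σ : Pre E.toMultTheory st (-d) Q) : ∃ (k l : ℕ) (m : ℤ), m ∣ (n : ℤ) ^ l ∧
      ∀ x a a', π.R E.o x a → π'.R E.o x a' → ∃ j, n ^ j • n ^ k • a' = n ^ j • m • a := by
  have h1 : (1 : E.A) ∈ E.degA (-(d + -d)) := by
    rw [add_neg_cancel, neg_zero]
    exact E.one_deg
  obtain ⟨θ, hθ⟩ := (π.tensor σ).exists_R H h1
  obtain ⟨θ', hθ'⟩ := (π'.tensor σ).exists_R H h1
  obtain ⟨χ, hχ⟩ := (σ.tensor π').exists_R H (a := 1) (by rwa [add_comm])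
  obtain ⟨k, m, e⟩ := hθ'.exists_int H hU (add_neg_cancel d) θ
  obtain ⟨k', m', e'⟩ := hθ.exists_int H hU (add_neg_cancel d) θ'
  have h2 : ((n : ℤ) ^ (k' + k)) • θ = (m * m') • θ := by
    rw [pow_add, mul_smul, mul_smul, ← e', ← Nat.cast_pow, ← Nat.cast_pow, natCast_zsmul,
      natCast_zsmul, e, smul_comm]
  obtain ⟨j, hj⟩ := (hθ.zsmul H hU _).uniq H hU (h2 ▸ hθ.zsmul H hU (m * m'))
  refine ⟨k, j + (k' + k), m, ⟨n ^ j * m', sub_eq_zero.1 (hZ _ ?_)⟩, fun x a a' h h' => ?_⟩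
  · rw [← natCast_zsmul, ← natCast_zsmul, smul_smul, smul_smul, Nat.cast_pow, ← pow_add,
      mul_left_comm, ← sub_eq_zero, ← sub_smul] at hj
    exact hj
  · obtain ⟨y, hy⟩ := π'.exists_R H h.deg
    have h3 := (h.mul hχ).assoc.eq H hU (by simpa using hθ.mul hy)
    have h4 := (h'.mul hχ).assoc.nsmul H (n ^ k)
    rw [h3, ← pr2_nsmul, e] at h4
    simpa using h4.uniq H hU ((hθ'.zsmul H hU m).mul hy)

end Pre

section basic

variable {E : MultTheory.{v}} (o : Orientation E)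

/-- the generator of `ℝ^(b + b)` -/
def linT (b : O) : E.U (V (b ⊗ b)) := E.map (O.vecIso b b).symm.hom (linV o b)

theorem gen_linT (b : O) : Gen (linT o b) := (gen_linV o b).map _

theorem linT_deg (b : O) : linT o b ∈ E.deg _ (Fintype.card b.El) := map_deg _ (linV_deg o b)

variable (H : ULoc n st)

/-- the presentations of the unit -/
def preLam (b : O) : Pre E st 0 (𝟙_ C) where
  c := b
  K := V b
  g := linV o b
  gen := gen_linV o b
  deg := (add_zero (Fintype.card b.El : ℤ)).symm ▸ linV_deg o b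
  e := @asIso _ _ _ _ _ (H.isIso_lam0 b) ≪≫ (Functor.Monoidal.εIso st).symm

theorem preLam_one (b : O) :
    (preLam o H b).R o (ε st ≫ st.map (MonObj.one (X := MUo))) 1 :=
  (Rel.base (lam0 b ≫ MonObj.one (X := MUo))).of_eq (by simp [preLam])
    ((cls_lam0 o b).trans (one_smul _ _).symm)

variable {cc : Cells C ℤ} (e₁ : cc.obj 1 ≅ st.obj (S (EF O)))
include o H e₁

theorem nonempty_pre (d : ℤ) : Nonempty (Pre E st d (cc.obj (2 * d))) := by
  have := H.isIso_lamC
  have l : st.obj ((jC O).obj (V O.pt)) ≅ cc.obj 1 :=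
    st.mapIso ((jC O).mapIso O.lineIso.symm) ≪≫ e₁.symm
  have l' : st.obj (rep O.pt) ≅ cc.obj (-1) := (ρ_ _).symm ≪≫
    whiskerLeftIso _ (cc.inv' 1).symm ≪≫ (α_ _ _ _).symm ≪≫ whiskerRightIso (whiskerLeftIso _ e₁ ≪≫
      Functor.Monoidal.μIso st _ _ ≪≫ asIso (st.map (lamC O)) ≪≫
        (Functor.Monoidal.εIso st).symm) _ ≪≫ λ_ _
  have p : Pre E st 1 (cc.obj (1 + 1)) :=
    { c := 𝟙_ O
      K := V O.pt ⊗ V O.pt
      g := E.cross (linV o O.pt) (E.map O.unitIsoV.symm.hom E.one)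
      gen := (gen_linV o _).cross (gen_one.map _)
      deg := (cross_deg (linV_deg o O.pt) (map_deg O.unitIsoV.symm.hom E.one_deg) :)
      e := st.mapIso (λ_ _ ≪≫ (Functor.Monoidal.μIso (jC O) _ _).symm) ≪≫
        (Functor.Monoidal.μIso st _ _).symm ≪≫ (l ⊗ᵢ l) ≪≫ cc.add 1 1 }
  have q : Pre E st (-1) (cc.obj (-1 + -1)) :=
    { c := O.pt ⊗ O.pt
      K := 𝟙_ LC
      g := E.cross E.one (linT o O.pt)
      gen := gen_one.cross (gen_linT o _)
      deg := (cross_deg E.one_deg (linT_deg o O.pt) :)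
      e := st.mapIso (whiskerLeftIso _ (Functor.Monoidal.εIso (jC O)).symm ≪≫ ρ_ _ ≪≫
        (repTensor _ _).symm) ≪≫ (Functor.Monoidal.μIso st _ _).symm ≪≫ (l' ⊗ᵢ l') ≪≫
          cc.add (-1) (-1) }
  induction d using Int.induction_on with
  | zero => exact ⟨(preLam o H (𝟙_ O)).ofIso cc.zero rfl⟩
  | succ k ih =>
    exact ih.map fun π => (π.tensor p).ofIso (cc.add _ _ ≪≫ eqToIso (congrArg _ (by ring))) rfl
  | pred k ih =>
    exact ih.map fun π => (π.tensor q).ofIso (cc.add _ _ ≪≫ eqToIso (congrArg _ (by ring)))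
      (sub_eq_add_neg _ _).symm

end basic

end Vale.Agent.P257.P
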