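import Vale.Agent.P257.P.Stb
import Vale.Agent.P257.E.Dh

/-!
# P257, part P: the classes of stable maps from cells to `MU`

* `ULoc n st` : `st` is the stabilisation of orthogonal spectra with `n` inverted;
* `Rel o st x u` : the stable map `x` has the class `u`; natural, functional, additive, total,
  multiplicative, and onto and injective up to powers of `n`.
-/

open CategoryTheory MonoidalCategory Limits Functor.LaxMonoidal Functor.OplaxMonoidal

universe v w u

set_option linter.unusedSectionVars false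

noncomputable section

namespace Vale.Agent.P257.P

open Vale.Agent.P251.H.StabInput (MHtpy)
open Vale.Agent.P251.G Vale.Agent.P251.Q Vale.Agent.P251.Q.MultTheory
open Vale.Agent.P251.G.LC (RR sum sumInl sumInr mfold cat)
open Vale.Agent.P257.D Vale.Agent.P257.E
open Vale.Agent.P257.D.EF (rep jC lamC)
open Vale.Agent.P257.D.O (V)
open Vale.Agent.P257.Det (RepUniq)
open Vale.Agent.P257.C (SphFun zsmul_whiskerRight whiskerLeft_zsmul)

attribute [-instance] instNonUnitalCommRing instCommRing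

variable {C : Type u} [Category.{w} C] [Preadditive C]

/-- the stabilisation of orthogonal spectra with `n` inverted -/
structure ULoc (n : ℕ) (st : EF O ⥤ C) : Prop where
  loc : IsLoc (DE (EF O) n).lam st
  sph : SphFun (jC O ⋙ st)
  zero : ∀ A B : EF O, st.map (0 : A ⟶ B) = 0

theorem uLoc_st (n : ℕ) : ULoc n (K.st (DE (EF O) n)) :=
  ⟨isLoc _, K.SC.sphFun _, K.SC.st_zero⟩

theorem lam0_eq (b : O) : lam0 b = lamV (𝟭 O) b :=
  RF_ext fun k => by
    refine Eq.trans ?_ (lamV_gen (𝟭 O) (a := b) k).symm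
    rw [lam0, lamOf_tm, EF.smp_id_right, Category.comp_id]
    exact congrArg (fun z => EF.pr (z ≫ _)) (Category.id_comp _).symm

variable [MonoidalCategory C] [SymmetricCategory C] [MonoidalPreadditive C] {st : EF O ⥤ C}
  [st.Braided] {n : ℕ} {b c c' : O} {K K' X Y : LC}

theorem st_cm (f : X ⟶ Y) : st.map (cm (𝟙 c) (f ▷ K)) =
    (δ st _ _ ≫ _ ◁ (δ (jC O ⋙ st) X K)) ≫ st.obj (rep c) ◁ ((jC O ⋙ st).map f ▷ _) ≫
      _ ◁ μ (jC O ⋙ st) Y K ≫ μ st _ _ := by
  rw [cm_left, Functor.Monoidal.map_whiskerLeft, ← Functor.comp_map,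
    Functor.Monoidal.map_whiskerRight]
  simp only [MonoidalCategory.whiskerLeft_comp, Category.assoc]

namespace ULoc

variable (H : ULoc n st)
include H

theorem htpy {A B : EF O} {f g : A ⟶ B} (h : MHtpy f g) : st.map f = st.map g := H.loc.htpy h

theorem isIso_lamC : IsIso (st.map (lamC O)) :=
  Rot.isIso_map st H.htpy (K.Stab.std (EF O)).rot (_ ◁ (jC O).map (mfold n))
    (h := H.loc.isIso_lam)

theorem isIso_lam0 (b : O) : IsIso (st.map (lam0 b)) := by
  have := H.isIso_lamC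
  rw [lam0_eq]
  exact isIso_lamV (𝟭 O) st b

theorem isIso_stb (b c : O) (K : LC) : IsIso (st.map (stb b c K)) := by
  have := H.isIso_lam0 b
  rw [stb, st.map_comp, st.map_comp, Functor.Monoidal.map_whiskerRight]
  infer_instance

theorem st_cat (f g : RR ⟶ X) : st.map (cm (𝟙 c) (cat f g ▷ K)) =
    st.map (cm (𝟙 c) (f ▷ K)) + st.map (cm (𝟙 c) (g ▷ K)) := by
  rw [st_cm, st_cm, st_cm, H.sph.map_cat, MonoidalPreadditive.add_whiskerRight,
    MonoidalPreadditive.whiskerLeft_add, Preadditive.add_comp, Preadditive.comp_add]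

theorem st_mf (m : ℕ) : st.map (cm (𝟙 c) (mfold m ▷ K)) = m • 𝟙 _ := by
  have h := st_cm (st := st) (c := c) (K := K) (𝟙 RR)
  rw [id_whiskerRight, cm_id, st.map_id, CategoryTheory.Functor.map_id] at h
  rw [st_cm, H.sph.map_mfold, h, ← natCast_zsmul, ← natCast_zsmul, zsmul_whiskerRight,
    whiskerLeft_zsmul, Preadditive.zsmul_comp, Preadditive.comp_zsmul]

theorem isIso_n (A : C) : IsIso (n • 𝟙 A) := by
  have h1 := H.loc.isIso_lam
  have h2 := H.isIso_lamC
  refine isIso_nsmul_of_unit ?_ A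
  have h3 : st.map (DE (EF O) n).lam = n • st.map (lamC O) := by
    change st.map (rep O.pt ◁ (jC O).map (mfold n) ≫ lamC O) = _
    have h : st.map ((jC O).map (mfold n)) = n • 𝟙 (st.obj ((jC O).obj RR)) := H.sph.map_mfold n
    rw [st.map_comp, Functor.Monoidal.map_whiskerLeft, h,
      ← natCast_zsmul, ← natCast_zsmul, whiskerLeft_zsmul,
      MonoidalCategory.whiskerLeft_id, Preadditive.zsmul_comp, Preadditive.comp_zsmul,
      Category.id_comp, Functor.Monoidal.δ_μ, Preadditive.zsmul_comp, Category.id_comp]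
  have h4 : n • 𝟙 (𝟙_ C) = ε st ≫ inv (st.map (lamC O)) ≫ st.map (DE (EF O) n).lam ≫ η st := by
    rw [h3, Preadditive.nsmul_comp, Preadditive.comp_nsmul, Preadditive.comp_nsmul,
      IsIso.inv_hom_id_assoc, Functor.Monoidal.ε_η]
  rw [h4]
  infer_instance

theorem isIso_pow (k : ℕ) (A : C) : IsIso (n ^ k • 𝟙 A) := by
  induction k with
  | zero => rw [pow_zero, one_smul]; infer_instance
  | succ k ih => rw [pow_succ]; exact isIso_nsmul_mul ih (H.isIso_n A)

theorem pow_cancel {A B : C} {k : ℕ} {x y : A ⟶ B} (h : n ^ k • x = n ^ k • y) : x = y := by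
  have := H.isIso_pow k A
  rw [← cancel_epi (n ^ k • 𝟙 A), Preadditive.nsmul_comp, Preadditive.nsmul_comp,
    Category.id_comp, Category.id_comp, h]

theorem pow_div {A B : C} (k : ℕ) (x : A ⟶ B) : ∃ y, n ^ k • y = x := by
  have := H.isIso_pow k A
  exact ⟨inv (n ^ k • 𝟙 A) ≫ x, by
    rw [← Preadditive.nsmul_comp, ← Category.comp_id (inv _), ← Preadditive.comp_nsmul,
      IsIso.inv_hom_id, Category.id_comp]⟩

end ULoc

variable {E : MultTheory.{v}}

/-- the class of a stable map -/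
inductive Rel (o : Orientation E) (st : EF O ⥤ C) :
    ∀ {c : O} {K : LC}, (st.obj (Cel c K) ⟶ st.obj MUo) → E.U (K ⊗ V c) → Prop
  | base {c : O} {K : LC} [E.Good K] (y : Cel c K ⟶ MUo) : Rel o st (st.map y) (cls o y)
  | desc {c : O} {K : LC} [E.Good K] (b : O) {x : st.obj (Cel c K) ⟶ st.obj MUo}
      {u : E.U (K ⊗ V c)} : Rel o st (st.map (stb b c K) ≫ x) (sus o b u) → Rel o st x u

variable (st) in
/-- the product of stable maps -/
def mu2 (x : st.obj (Cel c K) ⟶ st.obj MUo) (x' : st.obj (Cel c' K') ⟶ st.obj MUo) :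
    st.obj (Cel (c ⊗ c') (K ⊗ K')) ⟶ st.obj MUo :=
  st.map (cT c K c' K').hom ≫ δ st _ _ ≫ (x ⊗ₘ x') ≫ μ st _ _ ≫ st.map (MonObj.mul (X := MUo))

namespace Rel

variable {o : Orientation E} {x x' : st.obj (Cel c K) ⟶ st.obj MUo} {u u' : E.U (K ⊗ V c)}

theorem of_eq (h : Rel o st x u) (e : x = x') (e' : u = u') : Rel o st x' u' := e ▸ e' ▸ h

theorem cm [E.Good K'] (h : Rel o st x u) (A : c ≅ c') (f : K' ⟶ K) :
    Rel o st (st.map (cm A.hom f) ≫ x) (trU A f u) := by
  induction h generalizing c' K' with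
  | base y => exact (base _).of_eq (st.map_comp _ _) (cls_cm o A f y)
  | desc b _ ih =>
    refine desc b ((ih (whiskerLeftIso b A) (V b ◁ f)).of_eq ?_ (trU_sus o A f _))
    rw [← st.map_comp_assoc, ← st.map_comp_assoc, whiskerLeftIso_hom, cm_stb]

theorem of_cm [E.Good K] [E.Good K'] (A : c ≅ c') (f : K' ≅ K)
    (h : Rel o st (st.map (P.cm A.hom f.hom) ≫ x) (trU A f.hom u)) : Rel o st x u :=
  (h.cm A.symm f.inv).of_eq
    (by rw [← st.map_comp_assoc, cm_comp, Iso.symm_hom, A.hom_inv_id, f.inv_hom_id, cm_id,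
      st.map_id, Category.id_comp])
    (by rw [trU_trU, Iso.self_symm_id, f.inv_hom_id, trU_id])

theorem stb (h : Rel o st x u) (b' : O) :
    Rel o st (st.map (stb b' c K) ≫ x) (sus o b' u) := by
  induction h with
  | base y => exact (base _).of_eq (st.map_comp _ _) (cls_stb o y)
  | @desc c K _ b x u _ ih =>
    refine desc b ((ih.cm ((α_ b' b c).symm ≪≫ whiskerRightIso (β_ b' b) c ≪≫ α_ b b' c)
      _).of_eq ?_ (sus_swap o u).symm)
    rw [← st.map_comp_assoc, ← st.map_comp_assoc, ← st.map_comp_assoc, stb_swap, Category.assoc]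
    rfl

theorem induction₂ {Q : ∀ {c : O} {K : LC}, (st.obj (Cel c K) ⟶ st.obj MUo) → E.U (K ⊗ V c) →
      (st.obj (Cel c K) ⟶ st.obj MUo) → E.U (K ⊗ V c) → Prop}
    (hb : ∀ {c : O} {K : LC} [E.Good K] (y y' : Cel c K ⟶ MUo),
      Q (st.map y) (cls o y) (st.map y') (cls o y'))
    (hd : ∀ {c : O} {K : LC} [E.Good K] (b : O) {x x' : st.obj (Cel c K) ⟶ st.obj MUo} {u u'},
      Q (st.map (P.stb b c K) ≫ x) (sus o b u) (st.map (P.stb b c K) ≫ x') (sus o b u') →
        Q x u x' u') (h : Rel o st x u) (h' : Rel o st x' u') : Q x u x' u' := by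
  induction h with
  | desc b _ ih => exact hd b (ih (h'.stb b))
  | base y =>
    induction h' with
    | base y' => exact hb y y'
    | desc b _ ih =>
      refine hd b ?_
      rw [← st.map_comp, ← cls_stb]
      exact ih _

theorem deg (h : Rel o st x u) : u ∈ E.deg _ (Fintype.card c.El) := by
  induction h with
  | base y => exact cls_deg o y
  | desc b _ ih =>
    refine deg_of_sus o (b := b) ?_
    rw [add_comm, ← Nat.cast_add, card_tensor]
    exact ih

theorem mul_comm [E.Good K] [E.Good K'] {z : st.obj (Cel c' K') ⟶ st.obj MUo}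
    {w : E.U (K' ⊗ V c')} (h : Rel o st (mu2 st z x) (mulU w u)) :
    Rel o st (mu2 st x z) (mulU u w) := by
  refine (h.cm (β_ c' c) (β_ K K').hom).of_eq ?_ (mulU_comm u w).symm
  rw [mu2, mu2, ← st.map_comp_assoc, ← cT_comm, st.map_comp_assoc, Functor.map_braiding,
    Category.assoc, Category.assoc, Functor.Monoidal.μ_δ_assoc,
    ← BraidedCategory.braiding_naturality_assoc, ← Functor.LaxBraided.braided_assoc,
    ← st.map_comp, IsCommMonObj.mul_comm]

theorem mul_left [E.Good K'] {z : st.obj (Cel c' K') ⟶ st.obj MUo}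
    {w : E.U (K' ⊗ V c')} (k : ∀ {c : O} {K : LC} [E.Good K] (y : Cel c K ⟶ MUo),
      Rel o st (mu2 st (st.map y) z) (mulU (cls o y) w)) (h : Rel o st x u) :
    Rel o st (mu2 st x z) (mulU u w) := by
  induction h with
  | base y => exact k y
  | @desc c K _ b x u _ ih =>
    refine desc b (of_cm (α_ b c c').symm (α_ (V b) K K') (ih.of_eq ?_ (mulU_sus o u w)))
    rw [mu2, mu2, ← st.map_comp_assoc, ← st.map_comp_assoc, Iso.symm_hom, Category.assoc,
      ← cT_stb, st.map_comp_assoc, ← δ_natural_left_assoc, ← tensorHom_id,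
      tensorHom_comp_tensorHom_assoc, Category.id_comp]

theorem mul [E.Good K'] {z : st.obj (Cel c' K') ⟶ st.obj MUo} {w : E.U (K' ⊗ V c')}
    (h : Rel o st x u) (h' : Rel o st z w) : Rel o st (mu2 st x z) (mulU u w) :=
  mul_left (fun y => mul_comm (mul_left (fun y' => (base _).of_eq (by
    rw [mu2, st.map_comp, st.map_comp, Functor.Monoidal.map_tensor, Category.assoc,
      Category.assoc]) (cls_mul o y' y)) h')) h

variable (H : ULoc n st) [E.Good K]
include H

theorem zero : Rel o st (0 : st.obj (Cel c K) ⟶ _) 0 :=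
  (base 0).of_eq (H.zero _ _) (cls_zero o)

theorem eq_of_eq (hU : RepUniq o) (h : Rel o st x u) (h' : Rel o st x' u) : x = x' :=
  induction₂ (Q := fun x u x' u' => u = u' → x = x')
    (fun y y' e => by
      obtain ⟨b, b', k⟩ := htpy_of_cls o hU e
      have := H.isIso_stb
      simpa only [st.map_comp, cancel_epi] using H.htpy k)
    (fun b _ _ _ _ k e => by
      have := H.isIso_stb
      exact (cancel_epi _).1 (k (congrArg _ e))) h h' rfl

theorem add_line (y y' : Cel c (RR ⊗ K) ⟶ MUo) :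
    Rel o st (st.map y + st.map y') (cls o y + cls o y') := by
  obtain ⟨w, h1, h2⟩ := exists_wed y y'
  have : E.Good (sum RR RR) := goodSum RR RR
  refine (base (P.cm (𝟙 _) (cat (sumInl RR RR) (sumInr RR RR) ▷ K) ≫ w)).of_eq ?_ ?_
  · rw [st.map_comp, H.st_cat, Preadditive.add_comp, ← st.map_comp, ← st.map_comp, h1, h2]
  · rw [cls_cm_left, map_cat, ← cls_cm_left, ← cls_cm_left, h1, h2]

theorem add_base (y y' : Cel c K ⟶ MUo) :
    Rel o st (st.map y + st.map y') (cls o y + cls o y') := by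
  refine desc O.pt (of_cm (Iso.refl _) (whiskerRightIso O.lineIso K) ((add_line H
    (P.cm (𝟙 _) (O.lineIso.hom ▷ K) ≫ P.stb O.pt c K ≫ y)
    (P.cm (𝟙 _) (O.lineIso.hom ▷ K) ≫ P.stb O.pt c K ≫ y')).of_eq ?_ ?_))
  · rw [Preadditive.comp_add, Preadditive.comp_add, st.map_comp, st.map_comp, st.map_comp,
      st.map_comp]
    rfl
  · rw [cls_cm_left, cls_cm_left, cls_stb, cls_stb, trU_refl, map_add, map_add]
    rfl

theorem add (h : Rel o st x u) (h' : Rel o st x' u') : Rel o st (x + x') (u + u') :=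
  induction₂ (Q := fun x u x' u' => Rel o st (x + x') (u + u')) (fun y y' => add_base H y y')
    (fun b _ _ _ _ k => desc b (k.of_eq (Preadditive.comp_add _ _ _ _ _ _).symm
      (map_add _ _ _).symm)) h h'

theorem nsmul (h : Rel o st x u) (m : ℕ) : Rel o st (m • x) (m • u) := by
  induction m with
  | zero => rw [zero_smul, zero_smul]; exact zero H
  | succ m ih => rw [succ_nsmul, succ_nsmul]; exact ih.add H h

end Rel

section tk

variable {o : Orientation E} [E.Good K]

theorem exists_adm (H : ULoc n st) {A : EF O} {t : A ⟶ Cel c K}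
    (ht : Tk (DE (EF O) n).lam (Cel c K) t) :
    ∃ (c' : O) (K' : LC) (_ : E.Good K') (e : Cel c' K' ⟶ A) (k : ℕ)
      (s : E.U (K ⊗ V c) →+ E.U (K' ⊗ V c')), Function.Bijective s ∧
      (∀ y, cls o (e ≫ t ≫ y) = n ^ k • s (cls o y)) ∧
      ∀ x u, Rel o st (st.map (e ≫ t) ≫ x) (s u) → Rel o st (n ^ k • x) u := by
  induction ht with
  | id => exact ⟨c, K, inferInstance, 𝟙 _, 0, .id _, Function.bijective_id, fun y => by simp,
      fun x u h => by simpa using h⟩
  | @succ A t _ ih =>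
    obtain ⟨c', K', _, e, k, s, h1, h2, h3⟩ := ih
    obtain ⟨e', h4⟩ : ∃ e' : Cel (O.pt ⊗ c') (RR ⊗ K') ⟶ _, e' ≫ tt (DE (EF O) n).lam A =
        cm (𝟙 _) (mfold n ▷ K') ≫ cm (𝟙 _) (O.lineIso.hom ▷ K') ≫ stb O.pt c' K' ≫ e := by
      refine ⟨(cT O.pt RR c' K').hom ≫ _ ◁ e, ?_⟩
      have h5 : (DE (EF O) n).lam = cm (𝟙 O.pt) (mfold n ≫ O.lineIso.hom) ≫ lam0 O.pt := by
        rw [← Category.id_comp (𝟙 O.pt), ← cm_comp_assoc, ← lamC_eq_lam0, cm_left]
        rfl
      have h6 := cT_nat (𝟙 O.pt) (mfold n ≫ O.lineIso.hom) (𝟙 c') (𝟙 K')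
      rw [cm_id, tensorHom_id, id_tensorHom_id, tensorHom_id] at h6
      rw [Category.assoc, tt_nat, h5, ← tt_comp_assoc, reassoc_of% h6,
        cm_comp_assoc, Category.id_comp, comp_whiskerRight, stb, tt]
      simp only [Category.assoc]
    refine ⟨O.pt ⊗ c', RR ⊗ K', inferInstance, e', k + 1,
      (trU (Iso.refl _) (O.lineIso.hom ▷ K')).comp ((sus o O.pt).comp s),
      (trU_bijective _ (whiskerRightIso O.lineIso K')).comp ((sus_bijective o).comp h1),
      fun y => ?_, fun x u h => ?_⟩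
    · rw [Category.assoc, reassoc_of% h4, cls_cm_left, map_mf, cls_cm_left, cls_stb, h2, map_nsmul,
        map_nsmul, smul_smul, ← pow_succ', ← trU_refl]
      rfl
    · rw [pow_succ, mul_smul]
      refine h3 _ _ (.desc O.pt (.of_cm (Iso.refl _) (whiskerRightIso O.lineIso K')
        (h.of_eq ?_ rfl)))
      rw [reassoc_of% h4, st.map_comp, H.st_mf]
      simp

variable (H : ULoc n st)
include H

/-- Every stable map has a class, up to a power of `n`. -/
theorem ULoc.exists_rel (x : st.obj (Cel c K) ⟶ st.obj MUo) : ∃ k u, Rel o st (n ^ k • x) u := by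
  obtain ⟨A, t, f, ht, e⟩ := H.loc.surj x
  obtain ⟨c', K', _, i, k, s, h1, -, h3⟩ := exists_adm (o := o) H ht
  obtain ⟨u, hu⟩ := h1.2 (cls o (i ≫ f))
  exact ⟨k, u, h3 x u ((Rel.base _).of_eq (by simp [e]) hu.symm)⟩

omit [E.Good K] in
theorem Rel.pow_smul_eq_zero {x : st.obj (Cel c K) ⟶ st.obj MUo} {u : E.U (K ⊗ V c)}
    (h : Rel o st x u) (hx : x = 0) : ∃ k, n ^ k • u = 0 := by
  induction h with
  | base y =>
    obtain ⟨A, t, ht, e⟩ := H.loc.inj (hx.trans (H.zero _ _).symm)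
    obtain ⟨c', K', _, i, k, s, h1, h2, -⟩ := exists_adm (o := o) H ht
    refine ⟨k, h1.1 ?_⟩
    rw [map_nsmul, ← h2, cls_htpy o (e.comp_left i), comp_zero, comp_zero, cls_zero, map_zero]
  | desc b _ ih =>
    obtain ⟨k, hk⟩ := ih (by rw [hx, comp_zero])
    exact ⟨k, (sus_bijective o).1 (by rw [map_nsmul, hk, map_zero])⟩

end tk

variable {E : ThomTheory.{v}} [E.Good K] (H : ULoc n st)
include H

/-- Every class of the right degree is the class of a stable map. -/
theorem ULoc.exists_of_deg {u : E.U (K ⊗ V c)} (hu : u ∈ E.deg _ (Fintype.card c.El)) :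
    ∃ x, Rel E.o st x u := by
  obtain ⟨b, b', y, h⟩ := exists_cls E hu
  have := H.isIso_stb
  exact ⟨inv (st.map (stb b c K)) ≫ inv (st.map (stb b' _ _)) ≫ st.map y,
    .desc b (.desc b' ((Rel.base y).of_eq (by simp) h))⟩

variable (hU : RepUniq E.o) {x x' : st.obj (Cel c K) ⟶ st.obj MUo} {u u' : E.U (K ⊗ V c)}
include hU

theorem Rel.neg (h : Rel E.o st x u) : Rel E.o st (-x) (-u) := by
  obtain ⟨z, hz⟩ := H.exists_of_deg (neg_mem h.deg)
  have := (hz.add H h).eq_of_eq H hU ((Rel.zero H).of_eq rfl (neg_add_cancel u).symm)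
  exact hz.of_eq (eq_neg_of_add_eq_zero_left this) rfl

theorem Rel.zsmul (h : Rel E.o st x u) (m : ℤ) : Rel E.o st (m • x) (m • u) := by
  obtain ⟨m, rfl | rfl⟩ := m.eq_nat_or_neg
  · rw [natCast_zsmul, natCast_zsmul]
    exact h.nsmul H m
  · rw [neg_smul, neg_smul, natCast_zsmul, natCast_zsmul]
    exact (h.nsmul H m).neg H hU

theorem Rel.uniq (h : Rel E.o st x u) (h' : Rel E.o st x u') : ∃ k, n ^ k • u = n ^ k • u' := by
  obtain ⟨k, hk⟩ := (h.add H (h'.neg H hU)).pow_smul_eq_zero H (add_neg_cancel x)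
  exact ⟨k, by rwa [smul_add, smul_neg, add_neg_eq_zero] at hk⟩

end Vale.Agent.P257.P
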