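import Vale.Agent.P257.P.Cls
import Vale.Agent.P257.Det.Defs
import Vale.Agent.P251.G.ThJ
import Vale.Agent.P251.H.Loop

/-!
# P257, part P: the classes after stabilisation

* `htpy_of_cls` : maps with the same class are homotopic after two stabilisations;
* `exists_cls` : every class occurs after two stabilisations;
* `exists_wed`, `map_cat`, `map_mf` : sums and multiples.
-/

open CategoryTheory MonoidalCategory Limits MonObj Matrix
open scoped OnePoint

universe v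

set_option linter.unusedSectionVars false

noncomputable section

namespace Vale.Agent.P257.P

open Vale.Agent.P251.H.StabInput (MHtpy)
open Vale.Agent.P251.G Vale.Agent.P251.Q Vale.Agent.P251.Q.MultTheory
open Vale.Agent.P251.G.LC (RR app smash Homotopic sum sumInl sumInr mfold cat)
open Vale.Agent.P257.D Vale.Agent.P257.E
open Vale.Agent.P257.D.O (V)
open Vale.Agent.P257.Det (RepUniq)

variable {b c : O} {K : LC} {I J W : Type} [Fintype I] [Fintype J] [Fintype W] [DecidableEq I]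
  [DecidableEq J] [DecidableEq W]

variable (b) in
/-- the stabilisation of a map to a Thom space -/
def stT (g : K ⊗ V c ⟶ LC.of (Th (Fintype.card c.El) I)) (s : Matrix J (b.El ⊕ I) ℂ)
    (hs : sᴴ * s = 1) : (V b ⊗ K) ⊗ V (b ⊗ c) ⟶ LC.of (Th (Fintype.card (b ⊗ c).El) J) :=
  (shT b (V b) c K).hom ≫ (((cpx b).hom ≫ Th.incl' rfl) ⊗ₘ g) ≫ Th.sum (card_tensor b c) ≫
    Th.map s hs

variable {g g' : K ⊗ V c ⟶ LC.of (Th (Fintype.card c.El) I)}

theorem stT_htpy (h : Homotopic g g') {s s' : Matrix J (b.El ⊕ I) ℂ} (hs : sᴴ * s = 1)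
    (hs' : s'ᴴ * s' = 1) : Homotopic (stT b g s hs) (stT b g' s' hs') :=
  (((Homotopic.refl _).tensor h).comp
    ((Th.map_homotopic_map _ _ _ _).comp_left _)).comp_left _

theorem stT_map {s : Matrix J (b.El ⊕ I) ℂ} (hs : sᴴ * s = 1) {w : Matrix W J ℂ}
    (hw : wᴴ * w = 1) : stT b g s hs ≫ Th.map w hw = stT b g (w * s) (isom_mul hw hs) := by
  rw [stT, stT, ← Th.map_comp _ hs _ hw]
  simp only [Category.assoc]

theorem stT_comp_map {w : Matrix W I ℂ} (hw : wᴴ * w = 1) {s : Matrix J (b.El ⊕ W) ℂ}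
    (hs : sᴴ * s = 1) : stT b (g ≫ Th.map w hw) s hs =
      stT b g (s * fromBlocks 1 0 0 w) (isom_mul hs (isom_fromBlocks isom_one hw)) := by
  rw [stT, stT, ← Th.map_comp _ (isom_fromBlocks isom_one hw) _ hs,
    ← reassoc_of% Th.sum_whiskerLeft, ← id_tensorHom,
    tensorHom_comp_tensorHom_assoc, Category.comp_id]

theorem stT_swap {u : Matrix J (I ⊕ b.El) ℂ} (hu : uᴴ * u = 1) :
    stT b g _ (isom_mul hu (injMat_isom (Equiv.sumComm b.El I).injective)) =
      ((shT b (V b) c K).hom ≫ (cpx b).hom ▷ _ ≫ (β_ _ _).hom) ≫ g ▷ _ ≫ (_ ◁ Th.incl' rfl) ≫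
        Th.sum ((add_comm _ _).trans (card_tensor b c)) ≫ Th.map u hu := by
  have h1 := Th.sum_comm (I := b.El) (J := I) (card_tensor b c)
    ((add_comm _ _).trans (card_tensor b c))
  rw [← tensorHom_def_assoc, Category.assoc, Category.assoc,
    ← BraidedCategory.braiding_naturality_assoc, ← reassoc_of% h1, ← tensorHom_id,
    tensorHom_comp_tensorHom_assoc, Category.id_comp]
  exact congrArg (fun z => _ ≫ _ ≫ _ ≫ z) (Th.map_comp _ _ _ _).symm

theorem flat_stb' (b c : O) : ∃ (s : Matrix ((b ⊗ c).El ⊕ (b ⊗ c).El) (b.El ⊕ c.El ⊕ c.El) ℂ)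
    (hs : sᴴ * s = 1), ∀ {K : LC} (y : Cel c K ⟶ MUo),
      flat (stb b c K ≫ y) = stT b (flat y) s hs := by
  obtain ⟨r, h1, e⟩ : ∃ (r : Matrix ((b ⊗ c).El ⊕ (b ⊗ c).El) ((b.El ⊕ b.El) ⊕ c.El ⊕ c.El) ℂ)
    (hr : rᴴ * r = 1), sumN b c = Th.sum (card_tensor b c) ≫ Th.map r hr := ⟨_, _, rfl⟩
  have h2 := isom_fromBlocks (injMat_isom (Sum.inl_injective (α := b.El) (β := b.El)))
    (isom_one (I := c.El ⊕ c.El))
  refine ⟨_, isom_mul h1 h2, fun y => ?_⟩
  rw [flat_stb, stT, inN, e, ← Th.map_comp _ h2 _ h1, ← reassoc_of% Th.sum_whiskerRight,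
    ← tensorHom_id, tensorHom_comp_tensorHom_assoc, Category.comp_id, Category.assoc]

theorem exists_isom_N (c : O) (I : Type) [Fintype I] [DecidableEq I] : ∃ (b : O)
    (s : Matrix ((b ⊗ c).El ⊕ (b ⊗ c).El) (b.El ⊕ I) ℂ), sᴴ * s = 1 :=
  ⟨O.fin (Fintype.card I), exists_isom (by
    rw [Fintype.card_sum, Fintype.card_sum, ← card_tensor,
      show Fintype.card (O.fin (Fintype.card I)).El = Fintype.card I from Fintype.card_fin _]
    omega)⟩

theorem htpy_stb_of_map {y y' : Cel c K ⟶ MUo} {w : Matrix J (c.El ⊕ c.El) ℂ} (hw : wᴴ * w = 1)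
    (h : Homotopic (flat y ≫ Th.map w hw) (flat y' ≫ Th.map w hw)) :
    ∃ b, MHtpy (stb b c K ≫ y) (stb b c K ≫ y') := by
  obtain ⟨b, s, hs⟩ := exists_isom_N c J
  obtain ⟨r, hr, e⟩ := flat_stb' b c
  have k := stT_htpy h hs hs
  rw [stT_comp_map, stT_comp_map] at k
  refine ⟨b, mHtpy_of_flat ?_⟩
  rw [e, e]
  exact (stT_htpy (.refl _) _ _).trans (k.trans (stT_htpy (.refl _) _ _))

variable {E : MultTheory.{v}} (o : Orientation E) [E.Good K]

theorem map_stT_tau {s : Matrix J (b.El ⊕ I) ℂ} (hs : sᴴ * s = 1) :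
    E.map (stT b g s hs) (o.tau _ J) = sus o b (E.map g (o.tau _ I)) := by
  rw [stT, map_comp, map_comp, map_comp, tau_map, tau_sum', ← cross_map, map_comp, map_incl']
  rfl

theorem htpy_stT (hU : RepUniq o) (h : E.map g (o.tau _ I) = E.map g' (o.tau _ I)) :
    ∃ (b : O) (k : ℕ) (s : Matrix (Fin k) (b.El ⊕ I) ℂ) (hs : sᴴ * s = 1),
      Homotopic (stT b g s hs) (stT b g' s hs) := by
  obtain ⟨b, k, u, hu, H⟩ := hU g g' h
  have H' : ∀ (m l : ℕ) (hm : Fintype.card (Fin b) = m) (h : Fintype.card c.El + m = l),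
      Homotopic (g ▷ _ ≫ (_ ◁ Th.incl' hm) ≫ Th.sum h ≫ Th.map u hu)
        (g' ▷ _ ≫ (_ ◁ Th.incl' hm) ≫ Th.sum h ≫ Th.map u hu) := fun m l hm h => by
    obtain rfl : b = m := (Fintype.card_fin b).symm.trans hm
    subst h
    exact H
  exact ⟨O.fin b, k, _, _, (Homotopic.of_eq (stT_swap (b := O.fin b) hu)).trans
    (((H' _ _ rfl _).comp_left _).trans (.of_eq (stT_swap (b := O.fin b) hu).symm))⟩

/-- Maps with the same class are stably homotopic. -/
theorem htpy_of_cls (hU : RepUniq o) {y y' : Cel c K ⟶ MUo} (h : cls o y = cls o y') :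
    ∃ b b', MHtpy (stb b' _ _ ≫ stb b c K ≫ y) (stb b' _ _ ≫ stb b c K ≫ y') := by
  obtain ⟨b, k, s, hs, H⟩ := htpy_stT o hU h
  obtain ⟨r, hr, e⟩ := flat_stb' b c
  have hi := injMat_isom (Sum.inl_injective (α := (b ⊗ c).El ⊕ (b ⊗ c).El) (β := Fin k))
  have hj := injMat_isom (Sum.inr_injective (α := (b ⊗ c).El ⊕ (b ⊗ c).El) (β := Fin k))
  refine ⟨b, htpy_stb_of_map hi ?_⟩
  have k := H.comp_right (Th.map _ hj)
  rw [stT_map, stT_map] at k
  rw [e, e, stT_map, stT_map]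
  exact (stT_htpy (.refl _) _ _).trans (k.trans (stT_htpy (.refl _) _ _))

theorem exists_cls_th (g : K ⊗ V c ⟶ LC.of (Th (Fintype.card c.El) I)) :
    ∃ (b : O) (y : Cel (b ⊗ c) (V b ⊗ K) ⟶ MUo), cls o y = sus o b (E.map g (o.tau _ I)) := by
  obtain ⟨b, s, hs⟩ := exists_isom_N c I
  exact ⟨b, ofFlat (stT b g s hs), by rw [cls, flat_ofFlat, map_stT_tau]⟩

/-- Every class of the right degree occurs stably. -/
theorem exists_cls (E : ThomTheory.{v}) [E.Good K] {u : E.U (K ⊗ V c)}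
    (hu : u ∈ E.deg _ (Fintype.card c.El)) : ∃ (b b' : O)
      (y : Cel (b' ⊗ b ⊗ c) (V b' ⊗ V b ⊗ K) ⟶ MUo), cls E.o y = sus E.o b' (sus E.o b u) := by
  classical
  obtain ⟨n, m, I, _, h, f, hf⟩ := E.rep (Good.out (X := K ⊗ V c)) hu
  obtain rfl : m = Fintype.card (O.fin n ⊗ c).El := by
    rw [← card_tensor, show Fintype.card (O.fin n).El = n from Fintype.card_fin _]
    exact_mod_cast h
  have k : ∀ (b : O) (f : (K ⊗ V c) ⊗ Cpow b.El ⟶ LC.of (Th (Fintype.card (b ⊗ c).El) I)),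
      E.cross u (E.o.lin b.El) = E.map f (E.o.tau _ I) → ∃ (b' : O)
        (y : Cel (b' ⊗ b ⊗ c) (V b' ⊗ V b ⊗ K) ⟶ MUo),
          cls E.o y = sus E.o b' (sus E.o b u) := fun b f hf => by
    obtain ⟨b', y, hy⟩ := exists_cls_th E.o (c := b ⊗ c) ((shT b (V b) c K ≪≫
      whiskerRightIso (cpx b) _).hom ≫ (β_ _ _).hom ≫ f)
    refine ⟨b', y, hy.trans (congrArg _ ?_)⟩
    rw [map_comp, map_comp, ← hf, sus_apply, cross_comm]
  exact ⟨O.fin n, k (O.fin n) f hf⟩

theorem exists_wed {X Y : LC} (z : Cel c (X ⊗ K) ⟶ MUo) (z' : Cel c (Y ⊗ K) ⟶ MUo) :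
    ∃ w : Cel c (sum X Y ⊗ K) ⟶ MUo,
      cm (𝟙 c) (sumInl X Y ▷ K) ≫ w = z ∧ cm (𝟙 c) (sumInr X Y ▷ K) ≫ w = z' := by
  have hp := LC.isPushout_whiskerRight (K ⊗ V c) (i := (0 : LC.of Empty ⟶ X))
    (f := (0 : LC.of Empty ⟶ Y))
    (by intro a b _; rw [LC.eq_infty_empty a, LC.eq_infty_empty b])
    (LC.isPushout_sum X Y LC.isZero_empty 0 0)
  have : IsEmpty (LC.of Empty ⊗ K ⊗ V c : LC) := inferInstanceAs (IsEmpty (Empty × _))
  refine ⟨ofFlat ((α_ _ _ _).hom ≫ hp.desc ((α_ _ _ _).inv ≫ flat z) ((α_ _ _ _).inv ≫ flat z')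
    ((LC.eq_zero_of_empty _).trans (LC.eq_zero_of_empty _).symm)), flat_injective ?_,
    flat_injective ?_⟩
  · rw [flat_cm_left, flat_ofFlat, associator_naturality_left_assoc, hp.inl_desc,
      Iso.hom_inv_id_assoc]
  · rw [flat_cm_left, flat_ofFlat, associator_naturality_left_assoc, hp.inr_desc,
      Iso.hom_inv_id_assoc]

variable {X Z : LC} [E.Good X] [E.Good Z]

theorem map_cat (f g : RR ⟶ X) (w : E.U ((X ⊗ K) ⊗ Z)) : E.map ((cat f g ▷ K) ▷ Z) w =
    E.map ((f ▷ K) ▷ Z) w + E.map ((g ▷ K) ▷ Z) w := by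
  have H : ∀ x : OnePoint RR, (app (cat 0 g) x = ∞ ∧ app (cat f g) x = app (cat f 0) x) ∨
      (app (cat f 0) x = ∞ ∧ app (cat f g) x = app (cat 0 g) x) := fun x => by
    induction x using OnePoint.rec with
    | infty => exact .inl ⟨LC.app_infty _, (LC.app_infty _).trans (LC.app_infty _).symm⟩
    | coe x =>
      simp only [cat, LC.app_ofLoop_coe, Path.trans_apply]
      split_ifs
      exacts [.inl ⟨rfl, rfl⟩, .inr ⟨rfl, rfl⟩]
  rw [← map_homotopic (((LC.cat_zero f).whiskerRight K).whiskerRight Z),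
    ← map_homotopic (((LC.zero_cat g).whiskerRight K).whiskerRight Z)]
  simp only [whiskerRight_tensor_symm, map_comp, ← map_add]
  refine congrArg _ (map_add_of_disjoint_whiskerRight _ _ _
    (fun x => (H x).symm.imp And.left And.left) (fun x k => ?_) (fun x k => ?_) _)
  · exact (H x).elim And.right fun l => l.2.trans (k.trans l.1.symm)
  · exact (H x).elim (fun l => l.2.trans (k.trans l.1.symm)) And.right

theorem map_mf (m : ℕ) (w : E.U ((RR ⊗ K) ⊗ Z)) : E.map ((mfold m ▷ K) ▷ Z) w = m • w := by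
  rw [whiskerRight_tensor_symm, map_comp, map_comp, map_mfold, map_nsmul, map_hom_inv]

end Vale.Agent.P257.P
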